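import Vale.Agent.P212.TorusMod.Cover

/-!
P212, torus module: local symbols and the operators they give on the roots.
-/

open scoped InnerProductSpace ComplexConjugate ZeroAtInfty
open MeasureTheory Filter Topology Submodule

namespace VP212.TorusMod

/-- A family of symbols moving cells by at most `K` steps. -/
def Loc (K : ℕ) (f : ℕ → ℤ × ℤ → ℂ) : Prop :=
  BF f ∧ ∀ (n : ℕ) (z w : Grid n), ¬ Near K z w → chi n z * diagOp (f n) * chi n w = 0

theorem Loc.mono {K K' : ℕ} {f : ℕ → ℤ × ℤ → ℂ} (h : Loc K f) (hK : K ≤ K') : Loc K' f :=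
  ⟨h.1, fun n z w hn => h.2 n z w fun hh => hn (hh.mono hK)⟩

theorem Loc.one : Loc 0 1 := by
  refine ⟨BF.one, fun n z w hn => ?_⟩
  rw [show (1 : ℕ → ℤ × ℤ → ℂ) n = 1 from rfl, diagOp_one, mul_one, chi_mul, if_neg]
  rintro rfl
  exact hn ⟨0, 0, by simp, by simp, by simp⟩

theorem Loc.neg {K : ℕ} {f : ℕ → ℤ × ℤ → ℂ} (h : Loc K f) : Loc K (-f) :=
  ⟨h.1.neg, fun n z w hn => by
    rw [Pi.neg_apply, diagOp_neg (h.1.bs n), mul_neg, neg_mul, h.2 n z w hn, neg_zero]⟩

theorem Loc.add {K K' : ℕ} {f g : ℕ → ℤ × ℤ → ℂ} (hf : Loc K f) (hg : Loc K' g) :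
    Loc (max K K') (f + g) :=
  ⟨hf.1.add hg.1, fun n z w hn => by
    rw [Pi.add_apply, diagOp_add (hf.1.bs n) (hg.1.bs n), mul_add, add_mul,
      (hf.mono (le_max_left K K')).2 n z w hn, (hg.mono (le_max_right K K')).2 n z w hn,
      add_zero]⟩

theorem Loc.sub {K K' : ℕ} {f g : ℕ → ℤ × ℤ → ℂ} (hf : Loc K f) (hg : Loc K' g) :
    Loc (max K K') (f - g) := by
  rw [sub_eq_add_neg]
  exact hf.add hg.neg

theorem Loc.mul {K K' : ℕ} {f g : ℕ → ℤ × ℤ → ℂ} (hf : Loc K f) (hg : Loc K' g) :
    Loc (K + K') (f * g) :=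
  ⟨hf.1.mul hg.1, fun n z w hn => by
    rw [Pi.mul_apply, ← diagOp_mul (hf.1.bs n) (hg.1.bs n),
      show chi n z * (diagOp (f n) * diagOp (g n)) * chi n w =
        chi n z * diagOp (f n) * 1 * (diagOp (g n) * chi n w) by simp only [mul_one, mul_assoc],
      ← chi_sum n, Finset.mul_sum, Finset.sum_mul]
    refine Finset.sum_eq_zero fun u _ => ?_
    have hu : chi n u = chi n u * chi n u := by rw [chi_mul, if_pos rfl]
    by_cases h1 : Near K z u
    · have h2 := hg.2 n u w fun h2 => hn (h1.trans h2)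
      rw [hu, show chi n z * diagOp (f n) * (chi n u * chi n u) * (diagOp (g n) * chi n w) =
        chi n z * diagOp (f n) * chi n u * (chi n u * diagOp (g n) * chi n w) by
          simp only [mul_assoc], h2, mul_zero]
    · rw [hf.2 n z u h1, zero_mul]⟩

theorem loc_phases : Loc 2 phases := by
  refine ⟨BF_phases, fun n z w hn => ?_⟩
  refine sym_propagation (n + 3) (BM.indicator (measurableSet_cell n z))
    (BM.indicator (measurableSet_cell n w)) fun x y hx hy => sep_of_not_near ?_
  have hx' : x ∈ cell n z := Set.mem_of_indicator_ne_zero hx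
  have hy' : y ∈ cell n w := Set.mem_of_indicator_ne_zero hy
  rwa [(hx' : gIdx n x = z), (hy' : gIdx n y = w)]

theorem loc_phasesC : Loc 2 phasesC := by
  refine ⟨BF_phasesC, fun n z w hn => ?_⟩
  have h := congrArg star (loc_phases.2 n w z fun h => hn h.symm)
  rw [star_zero, star_mul, star_mul, chi_star, chi_star, diagOp_star (BF_phases.bs n),
    ← mul_assoc] at h
  exact h

theorem loc_defects : Loc 4 defects := (Loc.one.sub (loc_phasesC.mul loc_phases)).mono (by simp)

/-- Each component tends to zero at infinity. -/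
def Vanish (f : ℕ → ℤ × ℤ → ℂ) : Prop := ∀ n, Tendsto (f n) cofinite (𝓝 0)

theorem vanish_defects : Vanish defects := fun n => by
  rw [defects_eq]
  exact (phaseLike_sym (n + 3)).defect_tendsto

theorem Vanish.neg {f : ℕ → ℤ × ℤ → ℂ} (h : Vanish f) : Vanish (-f) := fun n => by
  simpa using! (h n).neg

theorem Vanish.mul_right {f g : ℕ → ℤ × ℤ → ℂ} (hf : Vanish f) (hg : BF g) : Vanish (f * g) := by
  intro n
  obtain ⟨C, hC⟩ := hg
  have h0 := (tendsto_zero_iff_norm_tendsto_zero.1 (hf n)).mul_const C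
  rw [zero_mul] at h0
  refine squeeze_zero_norm (fun k => ?_) h0
  rw [Pi.mul_apply, Pi.mul_apply, norm_mul]
  exact mul_le_mul_of_nonneg_left (hC n k) (norm_nonneg _)

/-- The symbols of the entries of the index class. -/
noncomputable def entrySym : Fin 2 → Fin 2 → ℕ → ℤ × ℤ → ℂ :=
  ![![defects * defects, defects * (1 + defects) * phasesC],
    ![defects * phases, -(defects * defects)]]

theorem loc_entrySym (i j : Fin 2) : Loc 10 (entrySym i j) := by
  fin_cases i <;> fin_cases j
  · exact (loc_defects.mul loc_defects).mono (by norm_num)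
  · exact ((loc_defects.mul (Loc.one.add loc_defects)).mul loc_phasesC).mono (by norm_num)
  · exact (loc_defects.mul loc_phases).mono (by norm_num)
  · exact (loc_defects.mul loc_defects).neg.mono (by norm_num)

theorem vanish_entrySym (i j : Fin 2) : Vanish (entrySym i j) := by
  fin_cases i <;> fin_cases j
  · exact vanish_defects.mul_right BF_defects
  · exact (vanish_defects.mul_right (BF.one.add BF_defects)).mul_right BF_phasesC
  · exact vanish_defects.mul_right BF_phases
  · exact (vanish_defects.mul_right BF_defects).neg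

/-- The operator of a family of symbols on the roots. -/
noncomputable def rootOp (f : ℕ → ℤ × ℤ → ℂ) :
    RoeSpace (Σ n, Grid n) →L[ℂ] RoeSpace (Σ n, Grid n) :=
  rootCover.toContinuousLinearMap.comp
    ((opB f).comp (ContinuousLinearMap.adjoint rootCover.toContinuousLinearMap))

theorem rootOp_entry_zero {K : ℕ} {f : ℕ → ℤ × ℤ → ℂ} (hf : Loc K f) (n m : ℕ) (z : Grid n)
    (w : Grid m) (k l : ℕ) (h : ∀ e : n = m, ¬ Near K (e ▸ z) w) :
    ⟪delta ⟨n, z⟩ k, rootOp f (delta ⟨m, w⟩ l)⟫_ℂ = 0 := by
  rw [rootOp, ContinuousLinearMap.comp_apply, ContinuousLinearMap.comp_apply, inner_delta,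
    rootCover_adjoint_delta]
  refine (rootCover_apply _ n z k).trans ?_
  rw [opB_apply hf.1, incl, lp.singleContinuousLinearMap_apply, lp.single_apply]
  by_cases e : n = m
  · subst e
    rw [Pi.single_eq_same, ← mul_apply_eq_comp, ← mul_apply_eq_comp, hf.2 n z w (h rfl)]
    simp
  · rw [Pi.single_eq_of_ne e, map_zero, map_zero, map_zero]
    rfl

theorem isRoe_pushOp {V : Type} [MetricSpace V] {j : (Σ n, Grid n) → V}
    (hj : Function.Injective j)
    (hd : ∀ {n K : ℕ} {z w : Grid n}, Near K z w → dist (j ⟨n, z⟩) (j ⟨n, w⟩) ≤ 2 * (K : ℝ))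
    {K : ℕ} {f : ℕ → ℤ × ℤ → ℂ} (hf : Loc K f) (hv : Vanish f) :
    IsRoe (pushOp hj (rootOp f)) := by
  refine ⟨⟨2 * (K : ℝ), fun x y k l hxy => ?_⟩, fun x y e e' he _ => ?_⟩
  · by_cases hx : x ∈ Set.range j
    · by_cases hy : y ∈ Set.range j
      · obtain ⟨⟨n, z⟩, rfl⟩ := hx
        obtain ⟨⟨m, w⟩, rfl⟩ := hy
        rw [(atRoots_pushOp hj (rootOp f)).1]
        refine rootOp_entry_zero hf n m z w k l fun e hn => ?_
        subst e
        exact absurd (hd hn) (not_le.2 hxy)
      · exact (atRoots_pushOp hj (rootOp f)).2 x y k l (Or.inr hy)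
    · exact (atRoots_pushOp hj (rootOp f)).2 x y k l (Or.inl hx)
  · set P := (push hj).toContinuousLinearMap
    set J := rootCover.toContinuousLinearMap
    set R := ((ContinuousLinearMap.adjoint J).comp ((ContinuousLinearMap.adjoint P).comp e'))
    by_cases hx : x ∈ Set.range j
    · obtain ⟨⟨n, z⟩, rfl⟩ := hx
      have key : e.comp ((pushOp hj (rootOp f)).comp e') =
          ((e.comp (P.comp J)).comp (incl (E := fun _ : ℕ => TorusL2) n)).comp
            ((diagOp (f n)).comp ((proj (E := fun _ : ℕ => TorusL2) n).comp R)) := by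
        refine ContinuousLinearMap.ext fun v => lp.ext (funext fun p => ?_)
        obtain ⟨y, k⟩ := p
        simp only [pushOp, rootOp, ContinuousLinearMap.comp_apply]
        by_cases hy : y = j ⟨n, z⟩
        · subst hy
          rw [(he _ _ _).1 rfl, (he _ _ _).1 rfl]
          refine (push_at hj _ _ k).trans ((push_at hj _ _ k).trans ?_).symm
          refine (rootCover_apply _ n z k).trans (Eq.trans ?_ (rootCover_apply _ n z k).symm)
          rw [opB_apply hf.1, incl, lp.singleContinuousLinearMap_apply, lp.single_apply,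
            Pi.single_eq_same]
          rfl
        · rw [(he _ _ _).2 hy, (he _ _ _).2 hy]
      rw [key]
      exact (((diagOp_compact (hf.1.bs n) (hv n)).comp_clm
        ((proj (E := fun _ : ℕ => TorusL2) n).comp R)).clm_comp
        ((e.comp (P.comp J)).comp (incl (E := fun _ : ℕ => TorusL2) n)) :)
    · have key : e.comp ((pushOp hj (rootOp f)).comp e') = 0 := by
        refine ContinuousLinearMap.ext fun v => lp.ext (funext fun p => ?_)
        obtain ⟨y, k⟩ := p
        simp only [pushOp, ContinuousLinearMap.comp_apply, zero_apply]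
        by_cases hy : y = x
        · subst hy
          rw [(he _ _ _).1 rfl]
          exact push_off hj _ hx k
        · rw [(he _ _ _).2 hy]
          rfl
      rw [key]
      exact isCompactOperator_zero

end VP212.TorusMod
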