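import Vale.Agent.P212.TorusMod.Nondeg
import Vale.Agent.P212.TorusMod.Local

/-!
P212, torus module: the index class on the roots and the specification.
-/

open scoped InnerProductSpace ComplexConjugate ZeroAtInfty
open MeasureTheory Filter Topology Submodule

namespace VP212.TorusMod

section Transport

variable {V : Type} {j : (Σ n, Grid n) → V} (hj : Function.Injective j)

/-- The covering isometry through an injective map. -/
noncomputable def coverAt : RootL2 →L[ℂ] RoeSpace V :=
  ((push hj).comp rootCover).toContinuousLinearMap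

theorem pushOp_rootOp (f : ℕ → ℤ × ℤ → ℂ) :
    pushOp hj (rootOp f) =
      (coverAt hj).comp ((opB f).comp (ContinuousLinearMap.adjoint (coverAt hj))) := by
  have h : coverAt hj = (push hj).toContinuousLinearMap.comp rootCover.toContinuousLinearMap := rfl
  rw [h, ContinuousLinearMap.adjoint_comp, pushOp, rootOp]
  rfl

theorem coverAt_adjoint_comp : (ContinuousLinearMap.adjoint (coverAt hj)).comp (coverAt hj) = 1 :=
  (coverAt hj).norm_map_iff_adjoint_comp_self.1 ((push hj).comp rootCover).norm_map

theorem pushOp_rootOp_mul {f g : ℕ → ℤ × ℤ → ℂ} (hf : BF f) (hg : BF g) :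
    pushOp hj (rootOp f) * pushOp hj (rootOp g) = pushOp hj (rootOp (f * g)) := by
  rw [pushOp_rootOp, pushOp_rootOp, pushOp_rootOp, ← opB_mul hf hg]
  refine ContinuousLinearMap.ext fun v => ?_
  simp only [mul_apply_eq_comp, ContinuousLinearMap.comp_apply]
  rw [← ContinuousLinearMap.comp_apply (ContinuousLinearMap.adjoint (coverAt hj)) (coverAt hj),
    coverAt_adjoint_comp, one_apply_eq_self]

theorem pushOp_rootOp_add {f g : ℕ → ℤ × ℤ → ℂ} (hf : BF f) (hg : BF g) :
    pushOp hj (rootOp f) + pushOp hj (rootOp g) = pushOp hj (rootOp (f + g)) := by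
  rw [pushOp_rootOp, pushOp_rootOp, pushOp_rootOp, opB_add hf hg,
    ContinuousLinearMap.add_comp, ContinuousLinearMap.comp_add]

theorem idempotent_of_entries {R : Type*} [Ring R] (S : Fin 2 → Fin 2 → R)
    (h00 : S 0 0 * S 0 0 + S 0 1 * S 1 0 = S 0 0) (h01 : S 0 0 * S 0 1 + S 0 1 * S 1 1 = 0)
    (h10 : S 1 0 * S 0 0 + S 1 1 * S 1 0 = 0)
    (h11 : S 1 0 * S 0 1 + (S 1 1 + S 1 1 * S 1 1) = 0) :
    IsIdempotentElem (Matrix.diagonal ![(0 : R), 1] + Matrix.of S) := by
  have e : Matrix.diagonal ![(0 : R), 1] + Matrix.of S =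
      !![S 0 0, S 0 1; S 1 0, 1 + S 1 1] := by
    ext i k
    fin_cases i <;> fin_cases k <;> simp
  rw [e]
  change _ * _ = _
  rw [Matrix.mul_fin_two]
  ext i k
  fin_cases i <;> fin_cases k <;> simp
  · exact h00
  · rw [mul_add, mul_one, ← add_assoc, add_comm (S 0 0 * S 0 1), add_assoc, h01, add_zero]
  · rw [add_mul, one_mul, ← add_assoc, add_comm (S 1 0 * S 0 0), add_assoc, h10, add_zero]
  · rw [add_mul, one_mul, mul_add, mul_one]
    calc S 1 0 * S 0 1 + (1 + S 1 1 + (S 1 1 + S 1 1 * S 1 1))
        = (1 + S 1 1) + (S 1 0 * S 0 1 + (S 1 1 + S 1 1 * S 1 1)) := by abel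
      _ = _ := by rw [h11, add_zero]

theorem pushOp_rootOp_zero : pushOp hj (rootOp 0) = 0 := by
  have h := pushOp_rootOp_add hj (f := 0) (g := 0) ⟨0, fun _ _ => by simp⟩ ⟨0, fun _ _ => by simp⟩
  rw [add_zero] at h
  exact add_eq_left.1 h

theorem index_idempotent :
    IsIdempotentElem (Matrix.diagonal ![(0 : RoeSpace V →L[ℂ] RoeSpace V), 1] +
      Matrix.of fun i k => pushOp hj (rootOp (entrySym i k))) := by
  have hb : ∀ i k, BF (entrySym i k) := fun i k => (loc_entrySym i k).1
  refine idempotent_of_entries _ ?_ ?_ ?_ ?_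
  all_goals
    repeat rw [pushOp_rootOp_mul hj (hb _ _) (hb _ _)]
  · rw [pushOp_rootOp_add hj ((hb _ _).mul (hb _ _)) ((hb _ _).mul (hb _ _))]
    congr 2
    funext n k
    simp only [entrySym, Matrix.cons_val_zero, Matrix.cons_val_one, Pi.add_apply, Pi.mul_apply,
      defects, Pi.sub_apply, Pi.one_apply]
    ring
  · rw [pushOp_rootOp_add hj ((hb _ _).mul (hb _ _)) ((hb _ _).mul (hb _ _)),
      ← pushOp_rootOp_zero hj]
    congr 2
    funext n k
    simp only [entrySym, Matrix.cons_val_zero, Matrix.cons_val_one, Pi.add_apply, Pi.mul_apply,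
      Pi.neg_apply, Pi.zero_apply, defects, Pi.sub_apply, Pi.one_apply]
    ring
  · rw [pushOp_rootOp_add hj ((hb _ _).mul (hb _ _)) ((hb _ _).mul (hb _ _)),
      ← pushOp_rootOp_zero hj]
    congr 2
    funext n k
    simp only [entrySym, Matrix.cons_val_zero, Matrix.cons_val_one, Pi.add_apply, Pi.mul_apply,
      Pi.neg_apply, Pi.zero_apply, defects, Pi.sub_apply, Pi.one_apply]
    ring
  · rw [pushOp_rootOp_add hj (hb _ _) ((hb _ _).mul (hb _ _)),
      pushOp_rootOp_add hj ((hb _ _).mul (hb _ _)) ((hb _ _).add ((hb _ _).mul (hb _ _))),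
      ← pushOp_rootOp_zero hj]
    congr 2
    funext n k
    simp only [entrySym, Matrix.cons_val_zero, Matrix.cons_val_one, Pi.add_apply, Pi.mul_apply,
      Pi.neg_apply, Pi.zero_apply, defects, Pi.sub_apply, Pi.one_apply]
    ring

end Transport

theorem indexEntry_phaseMod (T : Tower) (i k : Fin 2) :
    indexEntry (phaseMod T) (coverAt (rootVert_injective T)) (coverAt (rootVert_injective T)) i k =
      pushOp (rootVert_injective T) (rootOp (entrySym i k)) := by
  rw [pushOp_rootOp]
  set J := coverAt (rootVert_injective T)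
  have h0 : (1 : RootL2 →L[ℂ] RootL2) - opB phasesC * opB phases = opB defects := by
    rw [opB_mul BF_phasesC BF_phases, ← opB_one, ← opB_sub BF.one (BF_phasesC.mul BF_phases)]
    rfl
  have h1 : (1 : RootL2 →L[ℂ] RootL2) - opB phases * opB phasesC = opB defects := by
    rw [phasesC_mul_comm, h0]
  fin_cases i <;> fin_cases k
  · change J.comp (((1 - opB phasesC * opB phases) * (1 - opB phasesC * opB phases)).comp
      (ContinuousLinearMap.adjoint J)) = _
    rw [h0, opB_mul BF_defects BF_defects]
    rfl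
  · change J.comp ((((1 - opB phasesC * opB phases) * (1 + (1 - opB phasesC * opB phases))) *
      opB phasesC).comp (ContinuousLinearMap.adjoint J)) = _
    rw [h0, ← opB_one, ← opB_add BF.one BF_defects, opB_mul BF_defects (BF.one.add BF_defects),
      opB_mul (BF_defects.mul (BF.one.add BF_defects)) BF_phasesC]
    rfl
  · change J.comp (((1 - opB phases * opB phasesC) * opB phases).comp
      (ContinuousLinearMap.adjoint J)) = _
    rw [h1, opB_mul BF_defects BF_phases]
    rfl
  · change -(J.comp (((1 - opB phases * opB phasesC) * (1 - opB phases * opB phasesC)).comp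
      (ContinuousLinearMap.adjoint J))) = _
    rw [h1, opB_mul BF_defects BF_defects, ← ContinuousLinearMap.comp_neg,
      ← ContinuousLinearMap.neg_comp, ← opB_neg (BF_defects.mul BF_defects)]
    rfl

theorem torusModule : VP212.TorusModuleSpec := by
  intro T hg _
  refine ⟨phaseMod T, phaseMod_isTorusModule T, phaseMod_isGeometric T hg,
    coverAt (rootVert_injective T), coverAt (rootVert_injective T), cover_comp T, cover_comp T,
    fun i k => rootOp (entrySym i k), fun i k => pushOp rootBase_injective (rootOp (entrySym i k)),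
    fun i k => ?_, fun i k => ?_, fun i k a b hab r l => rootOp_entry_zero (loc_entrySym i k)
      a.1 b.1 a.2 b.2 r l fun e => absurd e hab, index_idempotent rootBase_injective⟩
  · rw [indexEntry_phaseMod]
    exact ⟨isRoe_pushOp _ (fun h => rootVert_near T h) (loc_entrySym i k) (vanish_entrySym i k),
      atRoots_pushOp _ _⟩
  · exact ⟨isRoe_pushOp _ (fun h => rootBase_near h) (loc_entrySym i k) (vanish_entrySym i k),
      atRoots_pushOp _ _⟩

end VP212.TorusMod
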