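import Mathlib

/-!
P212, torus module: block diagonal operators on sums of Hilbert spaces.
-/

open scoped InnerProductSpace ENNReal
open Filter Topology Submodule

namespace VP212.TorusMod

variable {ι : Type} {E : ι → Type} [∀ i, NormedAddCommGroup (E i)]
  [∀ i, InnerProductSpace ℂ (E i)]

/-- A bounded family of operators. -/
def BdFam (A : ∀ i, E i →L[ℂ] E i) : Prop := ∃ C, 0 ≤ C ∧ ∀ i, ‖A i‖ ≤ C

theorem BdFam.of_le {A : ∀ i, E i →L[ℂ] E i} (C : ℝ) (h : ∀ i, ‖A i‖ ≤ C) : BdFam A :=
  ⟨max C 0, le_max_right _ _, fun i => (h i).trans (le_max_left _ _)⟩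

theorem BdFam.add {A B : ∀ i, E i →L[ℂ] E i} (hA : BdFam A) (hB : BdFam B) : BdFam (A + B) := by
  obtain ⟨C, hC, hA⟩ := hA
  obtain ⟨D, hD, hB⟩ := hB
  exact ⟨C + D, by positivity, fun i => (norm_add_le _ _).trans (add_le_add (hA i) (hB i))⟩

theorem BdFam.sub {A B : ∀ i, E i →L[ℂ] E i} (hA : BdFam A) (hB : BdFam B) : BdFam (A - B) := by
  obtain ⟨C, hC, hA⟩ := hA
  obtain ⟨D, hD, hB⟩ := hB
  exact ⟨C + D, by positivity, fun i => (norm_sub_le _ _).trans (add_le_add (hA i) (hB i))⟩

theorem BdFam.mul {A B : ∀ i, E i →L[ℂ] E i} (hA : BdFam A) (hB : BdFam B) : BdFam (A * B) := by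
  obtain ⟨C, hC, hA⟩ := hA
  obtain ⟨D, hD, hB⟩ := hB
  exact ⟨C * D, by positivity, fun i =>
    (norm_mul_le _ _).trans (mul_le_mul (hA i) (hB i) (norm_nonneg _) hC)⟩

theorem BdFam.smul {A : ∀ i, E i →L[ℂ] E i} (hA : BdFam A) (c : ℂ) : BdFam (c • A) := by
  obtain ⟨C, hC, hA⟩ := hA
  exact ⟨‖c‖ * C, by positivity, fun i => by
    rw [Pi.smul_apply, norm_smul]; exact mul_le_mul_of_nonneg_left (hA i) (norm_nonneg _)⟩

theorem block_sum_le {A : ∀ i, E i →L[ℂ] E i} {C : ℝ} (hC : ∀ i, ‖A i‖ ≤ C) (v : lp E 2)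
    (s : Finset ι) :
    ∑ i ∈ s, ‖A i (v i)‖ ^ ((2 : ℝ≥0∞).toReal) ≤ (C * ‖v‖) ^ ((2 : ℝ≥0∞).toReal) := by
  have h2 := lp.sum_rpow_le_norm_rpow (p := 2) (by norm_num) v s
  simp only [ENNReal.toReal_ofNat, Real.rpow_two] at h2 ⊢
  calc ∑ i ∈ s, ‖A i (v i)‖ ^ 2 ≤ ∑ i ∈ s, C ^ 2 * ‖v i‖ ^ 2 := by
        refine Finset.sum_le_sum fun i _ => ?_
        rw [← mul_pow]
        exact pow_le_pow_left₀ (norm_nonneg _)
          (((A i).le_opNorm _).trans (mul_le_mul_of_nonneg_right (hC i) (norm_nonneg _))) 2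
    _ ≤ _ := by
        rw [← Finset.mul_sum, mul_pow]
        exact mul_le_mul_of_nonneg_left h2 (sq_nonneg _)

open Classical in
/-- The block diagonal operator of a bounded family. -/
noncomputable def blockDiag (A : ∀ i, E i →L[ℂ] E i) : lp E 2 →L[ℂ] lp E 2 :=
  if h : BdFam A then
    LinearMap.mkContinuous
      { toFun := fun v => ⟨fun i => A i (v i), memℓp_gen' (block_sum_le h.choose_spec.2 v)⟩
        map_add' := fun v w => lp.ext (funext fun i => by
          change A i ((v + w) i) = A i (v i) + A i (w i)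
          rw [lp.coeFn_add, Pi.add_apply, map_add])
        map_smul' := fun c v => lp.ext (funext fun i => by
          change A i ((c • v) i) = c • A i (v i)
          rw [lp.coeFn_smul, Pi.smul_apply, map_smul]) }
      h.choose fun v =>
        lp.norm_le_of_forall_sum_le (by norm_num) (mul_nonneg h.choose_spec.1 (norm_nonneg _))
          fun s => block_sum_le h.choose_spec.2 v s
  else 0

theorem blockDiag_apply {A : ∀ i, E i →L[ℂ] E i} (hA : BdFam A) (v : lp E 2) (i : ι) :
    blockDiag A v i = A i (v i) := by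
  rw [blockDiag, dif_pos hA]
  rfl

theorem blockDiag_norm {A : ∀ i, E i →L[ℂ] E i} {C : ℝ} (hC0 : 0 ≤ C) (hC : ∀ i, ‖A i‖ ≤ C) :
    ‖blockDiag A‖ ≤ C := by
  refine ContinuousLinearMap.opNorm_le_bound _ hC0 fun v => ?_
  refine lp.norm_le_of_forall_sum_le (by norm_num) (mul_nonneg hC0 (norm_nonneg _)) fun s => ?_
  rw [Finset.sum_congr rfl fun i _ => by rw [blockDiag_apply ⟨C, hC0, hC⟩]]
  exact block_sum_le hC v s

theorem blockDiag_add {A B : ∀ i, E i →L[ℂ] E i} (hA : BdFam A) (hB : BdFam B) :
    blockDiag (A + B) = blockDiag A + blockDiag B :=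
  ContinuousLinearMap.ext fun v => lp.ext (funext fun i => by
    refine (blockDiag_apply (hA.add hB) v i).trans ?_
    change A i (v i) + B i (v i) = blockDiag A v i + blockDiag B v i
    rw [blockDiag_apply hA, blockDiag_apply hB])

theorem blockDiag_sub {A B : ∀ i, E i →L[ℂ] E i} (hA : BdFam A) (hB : BdFam B) :
    blockDiag (A - B) = blockDiag A - blockDiag B :=
  ContinuousLinearMap.ext fun v => lp.ext (funext fun i => by
    refine (blockDiag_apply (hA.sub hB) v i).trans ?_
    change A i (v i) - B i (v i) = blockDiag A v i - blockDiag B v i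
    rw [blockDiag_apply hA, blockDiag_apply hB])

theorem blockDiag_smul {A : ∀ i, E i →L[ℂ] E i} (hA : BdFam A) (c : ℂ) :
    blockDiag (c • A) = c • blockDiag A :=
  ContinuousLinearMap.ext fun v => lp.ext (funext fun i => by
    refine (blockDiag_apply (hA.smul c) v i).trans ?_
    change c • A i (v i) = c • blockDiag A v i
    rw [blockDiag_apply hA])

theorem blockDiag_mul {A B : ∀ i, E i →L[ℂ] E i} (hA : BdFam A) (hB : BdFam B) :
    blockDiag A * blockDiag B = blockDiag (A * B) :=
  ContinuousLinearMap.ext fun v => lp.ext (funext fun i => by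
    rw [mul_apply_eq_comp, blockDiag_apply hA, blockDiag_apply hB,
      blockDiag_apply (hA.mul hB)]
    rfl)

theorem blockDiag_one : blockDiag (1 : ∀ i, E i →L[ℂ] E i) = 1 :=
  ContinuousLinearMap.ext fun v => lp.ext (funext fun i => by
    exact blockDiag_apply (.of_le 1 fun i => ContinuousLinearMap.norm_id_le) v i)

theorem blockDiag_zero : blockDiag (0 : ∀ i, E i →L[ℂ] E i) = 0 :=
  ContinuousLinearMap.ext fun v => lp.ext (funext fun i => by
    rw [blockDiag_apply (.of_le 0 fun i => by simp)]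
    simp)

variable [∀ i, CompleteSpace (E i)]

theorem BdFam.star {A : ∀ i, E i →L[ℂ] E i} (hA : BdFam A) :
    BdFam fun i => star (A i) := by
  obtain ⟨C, hC, hA⟩ := hA
  exact ⟨C, hC, fun i => by rw [norm_star]; exact hA i⟩

theorem blockDiag_star {A : ∀ i, E i →L[ℂ] E i} (hA : BdFam A) :
    star (blockDiag A) = blockDiag fun i => star (A i) := by
  rw [ContinuousLinearMap.star_eq_adjoint]
  symm
  rw [ContinuousLinearMap.eq_adjoint_iff]
  intro v w
  rw [lp.inner_eq_tsum, lp.inner_eq_tsum]
  refine tsum_congr fun i => ?_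
  rw [blockDiag_apply hA.star, blockDiag_apply hA, ContinuousLinearMap.star_eq_adjoint,
    ContinuousLinearMap.adjoint_inner_left]

omit [∀ i, CompleteSpace (E i)] in
/-- The inclusion of one summand. -/
noncomputable def incl [DecidableEq ι] (i : ι) : E i →L[ℂ] lp E 2 :=
  lp.singleContinuousLinearMap ℂ E 2 i

omit [∀ i, CompleteSpace (E i)] in
/-- The projection to one summand. -/
noncomputable def proj (i : ι) : lp E 2 →L[ℂ] E i := lp.evalCLM ℂ E 2 i

omit [∀ i, CompleteSpace (E i)] in
theorem proj_apply (i : ι) (v : lp E 2) : proj i v = v i := rfl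

omit [∀ i, CompleteSpace (E i)] in
theorem blockDiag_single_compact [DecidableEq ι] (i : ι) {T : E i →L[ℂ] E i}
    (hT : IsCompactOperator T) :
    IsCompactOperator ((incl i).comp (T.comp (proj i))) :=
  (hT.comp_clm (proj i)).clm_comp (incl i)

theorem blockDiag_compact {A : ∀ i, E i →L[ℂ] E i} (hA : BdFam A)
    (hc : ∀ i, IsCompactOperator (A i)) (h0 : Tendsto (fun i => ‖A i‖) cofinite (𝓝 0)) :
    IsCompactOperator (blockDiag A) := by
  classical
  refine isCompactOperator_of_tendsto (l := (atTop : Filter (Finset ι)))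
    (F := fun s => ∑ i ∈ s, (incl i).comp ((A i).comp (proj i))) ?_
    (Eventually.of_forall fun s => ?_)
  · rw [Metric.tendsto_nhds]
    intro ε hε
    have hfin := eventually_cofinite.1 (h0.eventually (eventually_lt_nhds (half_pos hε)))
    refine eventually_atTop.2 ⟨hfin.toFinset, fun s hs => ?_⟩
    rw [dist_eq_norm']
    have key : blockDiag A - ∑ i ∈ s, (incl i).comp ((A i).comp (proj i)) =
        blockDiag fun i => if i ∈ s then 0 else A i := by
      have hA' : BdFam fun i => if i ∈ s then 0 else A i := by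
        obtain ⟨C, hC0, hC⟩ := hA
        exact ⟨C, hC0, fun i => by
          by_cases h : i ∈ s <;> simp [h, hC0, hC i]⟩
      refine ContinuousLinearMap.ext fun v => lp.ext (funext fun i => ?_)
      rw [sub_apply, lp.coeFn_sub, Pi.sub_apply, blockDiag_apply hA, blockDiag_apply hA',
        sum_apply, lp.coeFn_sum, Finset.sum_apply]
      simp only [ContinuousLinearMap.comp_apply, incl, lp.singleContinuousLinearMap_apply,
        lp.coeFn_single, proj_apply, Finset.sum_pi_single]
      by_cases h : i ∈ s <;> simp [h]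
    rw [key]
    refine lt_of_le_of_lt (blockDiag_norm (half_pos hε).le fun i => ?_) (half_lt_self hε)
    by_cases h : i ∈ s
    · simp [h, (half_pos hε).le]
    · simp only [h, if_false]
      by_contra hlt
      exact h (hs (hfin.mem_toFinset.2 fun h' => hlt h'.le))
  · induction s using Finset.induction_on with
    | empty => simpa using isCompactOperator_zero
    | insert a s ha ih =>
      rw [Finset.sum_insert ha]
      exact (blockDiag_single_compact a (hc a)).add ih

omit [∀ i, CompleteSpace (E i)] in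
theorem lp_separable [Countable ι] [∀ i, TopologicalSpace.SeparableSpace (E i)] :
    TopologicalSpace.SeparableSpace (lp E 2) := by
  classical
  rw [← TopologicalSpace.isSeparable_univ_iff]
  have h : TopologicalSpace.IsSeparable (⋃ i, Set.range (incl (E := E) i)) :=
    .iUnion fun i => TopologicalSpace.isSeparable_range (incl (E := E) i).continuous
  refine ((h.span (R := ℂ)).closure).mono fun v _ => ?_
  exact mem_closure_of_tendsto (lp.hasSum_single (by norm_num) v) (Eventually.of_forall fun s =>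
    Submodule.sum_mem _ fun i _ => subset_span (Set.mem_iUnion.2 ⟨i, v i, rfl⟩))

end VP212.TorusMod
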