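import Vale.Agent.P212.TorusMod.Fred

/-!
P212, torus module: the covering isometry into the Roe space of the roots.
-/

open scoped InnerProductSpace ComplexConjugate ZeroAtInfty ENNReal
open MeasureTheory Filter Topology Submodule

namespace VP212.TorusMod

/-! ### Extension by zero along an injective map -/

section Push

variable {A V : Type} {ι : A → V}

/-- Extension by zero. -/
noncomputable def extFun (ι : A → V) (v : A × ℕ → ℂ) : V × ℕ → ℂ :=
  Function.extend (Prod.map ι id) v 0

theorem extFun_at (hι : Function.Injective ι) (v : A × ℕ → ℂ) (a : A) (k : ℕ) :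
    extFun ι v (ι a, k) = v (a, k) :=
  (hι.prodMap Function.injective_id).extend_apply v 0 (a, k)

theorem extFun_off (v : A × ℕ → ℂ) {x : V} (hx : x ∉ Set.range ι) (k : ℕ) :
    extFun ι v (x, k) = 0 :=
  Function.extend_apply' _ _ _ fun ⟨p, hp⟩ => hx ⟨p.1, congrArg Prod.fst hp⟩

theorem extFun_hasSum (hι : Function.Injective ι) (v : RoeSpace A) :
    HasSum (fun p => ‖extFun ι v p‖ ^ (2 : ℝ≥0∞).toReal) (‖v‖ ^ (2 : ℝ≥0∞).toReal) := by
  refine ((hι.prodMap Function.injective_id).hasSum_iff fun p hp => ?_).1
    ((lp.hasSum_norm (by norm_num) v).congr_fun fun p => ?_)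
  · rw [extFun, Function.extend_apply' _ _ _ fun ⟨q, hq⟩ => hp ⟨q, hq⟩]
    simp
  · simp only [Function.comp_apply]
    rw [extFun, (hι.prodMap Function.injective_id).extend_apply]

/-- Extension by zero as an isometry of the Roe spaces. -/
noncomputable def push (hι : Function.Injective ι) : RoeSpace A →ₗᵢ[ℂ] RoeSpace V where
  toFun v := ⟨extFun ι v, memℓp_gen (extFun_hasSum hι v).summable⟩
  map_add' v w := lp.ext (funext fun p => by
    change extFun ι (⇑(v + w)) p = extFun ι v p + extFun ι w p
    obtain ⟨x, k⟩ := p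
    by_cases hx : x ∈ Set.range ι
    · obtain ⟨a, rfl⟩ := hx
      simp only [extFun_at hι, lp.coeFn_add, Pi.add_apply]
    · simp only [extFun_off _ hx, add_zero])
  map_smul' c v := lp.ext (funext fun p => by
    change extFun ι (⇑(c • v)) p = c • extFun ι v p
    obtain ⟨x, k⟩ := p
    by_cases hx : x ∈ Set.range ι
    · obtain ⟨a, rfl⟩ := hx
      simp only [extFun_at hι, lp.coeFn_smul, Pi.smul_apply]
    · simp only [extFun_off _ hx, smul_zero])
  norm_map' v := by
    refine (Real.rpow_left_inj (norm_nonneg _) (norm_nonneg _)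
      (show (2 : ℝ≥0∞).toReal ≠ 0 by norm_num)).1 ?_
    exact (lp.hasSum_norm (by norm_num) _).unique (extFun_hasSum hι v)

theorem push_at (hι : Function.Injective ι) (v : RoeSpace A) (a : A) (k : ℕ) :
    push hι v (ι a, k) = v (a, k) := extFun_at hι v a k

theorem push_off (hι : Function.Injective ι) (v : RoeSpace A) {x : V} (hx : x ∉ Set.range ι)
    (k : ℕ) : push hι v (x, k) = 0 := extFun_off v hx k

theorem inner_delta {B : Type} (b : B) (k : ℕ) (v : RoeSpace B) : ⟪delta b k, v⟫_ℂ = v (b, k) := by
  classical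
  rw [delta, lp.inner_single_left]
  simp

theorem push_adjoint_delta (hι : Function.Injective ι) (a : A) (k : ℕ) :
    ContinuousLinearMap.adjoint (push hι).toContinuousLinearMap (delta (ι a) k) = delta a k :=
  ext_inner_right ℂ fun v => by
    rw [ContinuousLinearMap.adjoint_inner_left, inner_delta, inner_delta]
    exact push_at hι v a k

theorem push_adjoint_off (hι : Function.Injective ι) {x : V} (hx : x ∉ Set.range ι) (k : ℕ) :
    ContinuousLinearMap.adjoint (push hι).toContinuousLinearMap (delta x k) = 0 :=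
  ext_inner_right ℂ fun v => by
    rw [ContinuousLinearMap.adjoint_inner_left, inner_delta, inner_zero_left]
    exact push_off hι v hx k

/-- An operator moved along an injective map. -/
noncomputable def pushOp (hι : Function.Injective ι) (X : RoeSpace A →L[ℂ] RoeSpace A) :
    RoeSpace V →L[ℂ] RoeSpace V :=
  (push hι).toContinuousLinearMap.comp
    (X.comp (ContinuousLinearMap.adjoint (push hι).toContinuousLinearMap))

theorem atRoots_pushOp {W : Type} {j : (Σ n, Grid n) → W} (hj : Function.Injective j)
    (X : RoeSpace (Σ n, Grid n) →L[ℂ] RoeSpace (Σ n, Grid n)) : AtRoots j (pushOp hj X) X := by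
  refine ⟨fun a b k l => ?_, fun x y k l h => ?_⟩
  · rw [pushOp, ContinuousLinearMap.comp_apply, ContinuousLinearMap.comp_apply,
      ← ContinuousLinearMap.adjoint_inner_left, push_adjoint_delta, push_adjoint_delta]
  · rw [pushOp, ContinuousLinearMap.comp_apply, ContinuousLinearMap.comp_apply,
      ← ContinuousLinearMap.adjoint_inner_left]
    rcases h with h | h
    · rw [push_adjoint_off hj h, inner_zero_left]
    · rw [push_adjoint_off hj h, map_zero, inner_zero_right]

end Push

/-! ### The cells -/

/-- The projection of a cell. -/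
noncomputable def chi (n : ℕ) (z : Grid n) : TorusL2 →L[ℂ] TorusL2 :=
  mulOp ((cell n z).indicator fun _ => 1)

theorem chi_mul (n : ℕ) (z w : Grid n) : chi n z * chi n w = if z = w then chi n z else 0 := by
  rw [chi, chi, mulOp_mul (BM.indicator (measurableSet_cell n z))
    (BM.indicator (measurableSet_cell n w))]
  split_ifs with h
  · subst h
    refine congrArg mulOp (funext fun x => ?_)
    by_cases hx : x ∈ cell n z <;> simp [hx]
  · refine mulOp_zero fun x => ?_
    by_cases hx : x ∈ cell n z
    · have : x ∉ cell n w := fun hw => h (hx.symm.trans hw)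
      simp [this]
    · simp [hx]

theorem chi_star (n : ℕ) (z : Grid n) : star (chi n z) = chi n z := by
  rw [chi, mulOp_star (BM.indicator (measurableSet_cell n z))]
  refine congrArg mulOp (funext fun x => ?_)
  by_cases hx : x ∈ cell n z <;> simp [hx]

theorem measurableSet_cells (n : ℕ) (s : Finset (Grid n)) :
    MeasurableSet {x | gIdx n x ∈ s} := by
  have : {x | gIdx n x ∈ s} = ⋃ z ∈ s, cell n z := by ext x; simp [cell]
  rw [this]
  exact s.measurableSet_biUnion fun z _ => measurableSet_cell n z

theorem chi_sum (n : ℕ) : ∑ z, chi n z = 1 := by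
  have h : ∀ s : Finset (Grid n),
      ∑ z ∈ s, chi n z = mulOp ({x | gIdx n x ∈ s}.indicator fun _ => 1) := by
    intro s
    induction s using Finset.induction_on with
    | empty => rw [Finset.sum_empty, mulOp_zero fun x => by simp]
    | insert a s ha ih =>
      rw [Finset.sum_insert ha, ih, chi, ← mulOp_add (BM.indicator (measurableSet_cell n a))
        (BM.indicator (measurableSet_cells n s))]
      refine congrArg mulOp (funext fun x => ?_)
      by_cases hx : gIdx n x = a
      · simp [cell, Set.indicator, hx, ha]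
      · simp [cell, Set.indicator, hx]
  rw [h, mulOp_one fun x => by simp]

theorem chi_norm_sum (n : ℕ) (v : TorusL2) : ∑ z, ‖chi n z v‖ ^ 2 = ‖v‖ ^ 2 := by
  have h : ∀ z, ⟪chi n z v, chi n z v⟫_ℂ = ⟪v, chi n z v⟫_ℂ := fun z => by
    rw [← ContinuousLinearMap.adjoint_inner_right, ← ContinuousLinearMap.star_eq_adjoint,
      chi_star, ← mul_apply_eq_comp, chi_mul, if_pos rfl]
  have h2 : ((∑ z, ‖chi n z v‖ ^ 2 : ℝ) : ℂ) = ((‖v‖ ^ 2 : ℝ) : ℂ) := by
    have hsq : ∀ u : TorusL2, ((‖u‖ ^ 2 : ℝ) : ℂ) = ⟪u, u⟫_ℂ := fun u => by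
      rw [inner_self_eq_norm_sq_to_K]; push_cast; rfl
    rw [Complex.ofReal_sum]
    simp only [hsq, h]
    rw [← inner_sum, ← sum_apply, chi_sum, one_apply_eq_self]
  exact_mod_cast h2

/-- An enumeration of the frequencies. -/
noncomputable def freqEquiv : ℕ ≃ ℤ × ℤ := nonempty_equiv_of_countable.some

/-- The coordinates of a root vector in the cells and in the characters. -/
noncomputable def cellCoef (v : RootL2) (p : (Σ n, Grid n) × ℕ) : ℂ :=
  basis.repr (chi p.1.1 p.1.2 (v p.1.1)) (freqEquiv p.2)

theorem cellCoef_hasSum (v : RootL2) :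
    HasSum (fun p => ‖cellCoef v p‖ ^ (2 : ℝ≥0∞).toReal) (‖v‖ ^ (2 : ℝ≥0∞).toReal) := by
  set g : (Σ n, Grid n) → ℝ := fun a => ‖chi a.1 a.2 (v a.1)‖ ^ (2 : ℝ≥0∞).toReal with hg
  have hk : ∀ a, HasSum (fun k => ‖cellCoef v (a, k)‖ ^ (2 : ℝ≥0∞).toReal) (g a) := by
    intro a
    have h := lp.hasSum_norm (p := 2) (by norm_num) (basis.repr (chi a.1 a.2 (v a.1)))
    rw [LinearIsometryEquiv.norm_map] at h
    exact freqEquiv.hasSum_iff.2 h
  have hz : ∀ n, HasSum (fun z => g ⟨n, z⟩) (‖v n‖ ^ (2 : ℝ≥0∞).toReal) := fun n => by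
    have h := hasSum_fintype fun z => g ⟨n, z⟩
    simp only [hg, ENNReal.toReal_ofNat, Real.rpow_two, chi_norm_sum] at h ⊢
    exact h
  have hn := lp.hasSum_norm (p := 2) (by norm_num) v
  have hgs : Summable g := by
    refine (summable_sigma_of_nonneg fun a => by positivity).2
      ⟨fun n => (hz n).summable, ?_⟩
    simpa only [fun n => (hz n).tsum_eq] using hn.summable
  have hgsum : HasSum g (‖v‖ ^ (2 : ℝ≥0∞).toReal) := by
    have h := hgs.hasSum
    rwa [(h.sigma hz).unique hn] at h
  have hs : Summable fun p => ‖cellCoef v p‖ ^ (2 : ℝ≥0∞).toReal :=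
    (summable_prod_of_nonneg fun p => by positivity).2 ⟨fun a => (hk a).summable, by
      simpa only [fun a => (hk a).tsum_eq] using hgs⟩
  have h := hs.hasSum
  rwa [(h.prod_fiberwise hk).unique hgsum] at h

/-- The covering isometry onto the roots. -/
noncomputable def rootCover : RootL2 →ₗᵢ[ℂ] RoeSpace (Σ n, Grid n) where
  toFun v := ⟨cellCoef v, memℓp_gen (cellCoef_hasSum v).summable⟩
  map_add' v w := lp.ext (funext fun p => by
    change cellCoef (v + w) p = cellCoef v p + cellCoef w p
    rw [cellCoef, cellCoef, cellCoef, lp.coeFn_add, Pi.add_apply, map_add, map_add,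
      lp.coeFn_add, Pi.add_apply])
  map_smul' c v := lp.ext (funext fun p => by
    change cellCoef (c • v) p = c • cellCoef v p
    rw [cellCoef, cellCoef, lp.coeFn_smul, Pi.smul_apply, map_smul, map_smul, lp.coeFn_smul,
      Pi.smul_apply])
  norm_map' v := by
    refine (Real.rpow_left_inj (norm_nonneg _) (norm_nonneg _)
      (show (2 : ℝ≥0∞).toReal ≠ 0 by norm_num)).1 ?_
    exact (lp.hasSum_norm (by norm_num) _).unique (cellCoef_hasSum v)

theorem rootCover_apply (v : RootL2) (n : ℕ) (z : Grid n) (k : ℕ) :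
    rootCover v (⟨n, z⟩, k) = basis.repr (chi n z (v n)) (freqEquiv k) := rfl

theorem rootCover_adjoint_delta (n : ℕ) (z : Grid n) (k : ℕ) :
    ContinuousLinearMap.adjoint rootCover.toContinuousLinearMap (delta ⟨n, z⟩ k) =
      incl (E := fun _ : ℕ => TorusL2) n (chi n z (chrLp (freqEquiv k))) :=
  ext_inner_right ℂ fun v => by
    rw [ContinuousLinearMap.adjoint_inner_left, inner_delta, incl,
      lp.singleContinuousLinearMap_apply, lp.inner_single_left]
    refine (rootCover_apply v n z k).trans ?_
    rw [HilbertBasis.repr_apply_apply, basis_coe, ← ContinuousLinearMap.adjoint_inner_left,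
      ← ContinuousLinearMap.star_eq_adjoint, chi_star]

/-- A composite with an extension by zero covers. -/
theorem cover_comp (T : Tower) :
    IsCovering (rep0 T) ((push (rootVert_injective T)).comp rootCover).toContinuousLinearMap := by
  refine ⟨fun v => LinearIsometry.norm_map _ v, 0, fun f x hf v k => ?_⟩
  change push (rootVert_injective T) (rootCover (rep0 T f v)) (x, k) = 0
  by_cases hx : x ∈ Set.range (rootVert T)
  · obtain ⟨⟨n, z⟩, rfl⟩ := hx
    rw [push_at, rootCover_apply, rep0_apply, ← mul_apply_eq_comp, chi,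
      mulOp_mul (BM.indicator (measurableSet_cell n z)) (BM.of_continuous _),
      mulOp_zero fun y => ?_]
    · simp
    · by_cases hy : y ∈ cell n z
      · have h0 : pullF T n f y = 0 := by
          refine hf _ ⟨rootVert T ⟨n, z⟩, ?_, by simp⟩
          change rootVec T n y (rootVert T ⟨n, z⟩) ≠ 0
          rw [rootVec_apply, ← (hy : gIdx n y = z)]
          exact (gridCoord_idx_pos n y).ne'
        simp [h0]
      · simp [hy]
  · exact push_off _ _ hx k

end VP212.TorusMod
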