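import Vale.Agent.P212.TorusMod.Root

/-!
P212, torus module: the Fredholm module of phases on the root tori, and its geometry.
-/

open scoped InnerProductSpace ComplexConjugate ZeroAtInfty
open MeasureTheory Filter Topology Submodule

namespace VP212.TorusMod

/-! ### Families of symbols -/

/-- A uniformly bounded family of symbols. -/
def BF (f : ℕ → ℤ × ℤ → ℂ) : Prop := ∃ C, ∀ n k, ‖f n k‖ ≤ C

theorem BF.bs {f : ℕ → ℤ × ℤ → ℂ} (h : BF f) (n : ℕ) : BS (f n) := ⟨h.choose, h.choose_spec n⟩

theorem BF.bd {f : ℕ → ℤ × ℤ → ℂ} (h : BF f) : BdFam fun n => diagOp (f n) :=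
  .of_le h.choose fun n => diagOp_norm (h.choose_spec n)

theorem BF.add {f g : ℕ → ℤ × ℤ → ℂ} (hf : BF f) (hg : BF g) : BF (f + g) :=
  ⟨hf.choose + hg.choose, fun n k =>
    (norm_add_le _ _).trans (add_le_add (hf.choose_spec n k) (hg.choose_spec n k))⟩

theorem BF.neg {f : ℕ → ℤ × ℤ → ℂ} (hf : BF f) : BF (-f) :=
  ⟨hf.choose, fun n k => by rw [Pi.neg_apply, Pi.neg_apply, norm_neg]; exact hf.choose_spec n k⟩

theorem BF.sub {f g : ℕ → ℤ × ℤ → ℂ} (hf : BF f) (hg : BF g) : BF (f - g) := by
  rw [sub_eq_add_neg]; exact hf.add hg.neg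

theorem BF.mul {f g : ℕ → ℤ × ℤ → ℂ} (hf : BF f) (hg : BF g) : BF (f * g) :=
  ⟨hf.choose * hg.choose, fun n k => by
    rw [Pi.mul_apply, Pi.mul_apply, norm_mul]
    exact mul_le_mul (hf.choose_spec n k) (hg.choose_spec n k) (norm_nonneg _)
      ((norm_nonneg _).trans (hf.choose_spec n k))⟩

theorem BF.one : BF 1 := ⟨1, fun _ _ => by simp⟩

/-- The operator of a family of symbols. -/
noncomputable def opB (f : ℕ → ℤ × ℤ → ℂ) : RootL2 →L[ℂ] RootL2 :=
  blockDiag (E := fun _ : ℕ => TorusL2) fun n => diagOp (f n)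

theorem opB_apply {f : ℕ → ℤ × ℤ → ℂ} (hf : BF f) (v : RootL2) (n : ℕ) :
    opB f v n = diagOp (f n) (v n) := blockDiag_apply hf.bd v n

theorem opB_mul {f g : ℕ → ℤ × ℤ → ℂ} (hf : BF f) (hg : BF g) : opB f * opB g = opB (f * g) := by
  rw [opB, opB, blockDiag_mul hf.bd hg.bd]
  exact congrArg blockDiag (funext fun n => diagOp_mul (hf.bs n) (hg.bs n))

theorem opB_add {f g : ℕ → ℤ × ℤ → ℂ} (hf : BF f) (hg : BF g) : opB (f + g) = opB f + opB g := by
  rw [opB, opB, opB, ← blockDiag_add hf.bd hg.bd]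
  exact congrArg blockDiag (funext fun n => diagOp_add (hf.bs n) (hg.bs n))

theorem opB_sub {f g : ℕ → ℤ × ℤ → ℂ} (hf : BF f) (hg : BF g) : opB (f - g) = opB f - opB g := by
  rw [opB, opB, opB, ← blockDiag_sub hf.bd hg.bd]
  exact congrArg blockDiag (funext fun n => diagOp_sub (hf.bs n) (hg.bs n))

theorem opB_one : opB 1 = 1 := by
  rw [opB, ← blockDiag_one (E := fun _ : ℕ => TorusL2)]
  exact congrArg blockDiag (funext fun _ => diagOp_one)

theorem opB_neg {f : ℕ → ℤ × ℤ → ℂ} (hf : BF f) : opB (-f) = -opB f := by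
  have h0 : opB (0 : ℕ → ℤ × ℤ → ℂ) = 0 := by
    simpa using opB_sub BF.one BF.one
  rw [← zero_sub, opB_sub (by simpa using BF.one.sub BF.one) hf, h0, zero_sub]

theorem opB_star {f : ℕ → ℤ × ℤ → ℂ} (hf : BF f) :
    star (opB f) = opB fun n k => conj (f n k) := by
  rw [opB, blockDiag_star hf.bd]
  exact congrArg blockDiag (funext fun n => diagOp_star (hf.bs n))

/-- The phases of all components. -/
noncomputable def phases : ℕ → ℤ × ℤ → ℂ := fun n => sym (n + 3)

/-- The conjugate phases. -/
noncomputable def phasesC : ℕ → ℤ × ℤ → ℂ := fun n k => conj (phases n k)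

theorem BF_phases : BF phases := ⟨1, fun n k => sym_norm_le _ _⟩

theorem BF_phasesC : BF phasesC :=
  ⟨1, fun n k => by rw [phasesC, RCLike.norm_conj]; exact sym_norm_le _ _⟩

/-- The defects of all components. -/
noncomputable def defects : ℕ → ℤ × ℤ → ℂ := 1 - phasesC * phases

theorem defects_eq (n : ℕ) : defects n = defect (phases n) := rfl

theorem BF_defects : BF defects := BF.one.sub (BF_phasesC.mul BF_phases)

theorem defects_norm (n : ℕ) (k : ℤ × ℤ) : ‖defects n k‖ ≤ 2 := by
  have h := sym_norm_le (n + 3) k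
  have : defects n k = 1 - conj (sym (n + 3) k) * sym (n + 3) k := rfl
  rw [this]
  refine (norm_sub_le _ _).trans ?_
  rw [norm_one, norm_mul, RCLike.norm_conj]
  nlinarith [norm_nonneg (sym (n + 3) k)]

variable (T : Tower)

/-! ### The representation -/

/-- A function pulled back to the `n`-th torus. -/
noncomputable def pullF (n : ℕ) (f : C₀(Rips (Vert T) 2, ℂ)) : C(Torus, ℂ) :=
  ⟨fun x => f (rootPt T n x), (map_continuous f).comp (rootPt_continuous T n)⟩

theorem pullF_norm (n : ℕ) (f : C₀(Rips (Vert T) 2, ℂ)) : ‖mulOp (pullF T n f)‖ ≤ ‖f‖ := by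
  refine mulOp_norm (BM.of_continuous _) fun x => ?_
  exact f.toBCF.norm_coe_le_norm (rootPt T n x)

theorem pullF_bd (f : C₀(Rips (Vert T) 2, ℂ)) : BdFam fun n => mulOp (pullF T n f) :=
  .of_le ‖f‖ fun n => pullF_norm T n f

/-- The representation on the root tori. -/
noncomputable def rep0 : C₀(Rips (Vert T) 2, ℂ) →⋆ₙₐ[ℂ] (RootL2 →L[ℂ] RootL2) where
  toFun f := blockDiag (E := fun _ : ℕ => TorusL2) fun n => mulOp (pullF T n f)
  map_zero' := by
    rw [← blockDiag_zero (E := fun _ : ℕ => TorusL2)]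
    exact congrArg blockDiag (funext fun n => mulOp_zero fun x => rfl)
  map_add' f g := by
    rw [← blockDiag_add (pullF_bd T f) (pullF_bd T g)]
    refine congrArg blockDiag (funext fun n => ?_)
    exact mulOp_add (BM.of_continuous (pullF T n f)) (BM.of_continuous (pullF T n g))
  map_mul' f g := by
    rw [blockDiag_mul (pullF_bd T f) (pullF_bd T g)]
    refine congrArg blockDiag (funext fun n => ?_)
    exact (mulOp_mul (BM.of_continuous (pullF T n f)) (BM.of_continuous (pullF T n g))).symm
  map_smul' c f := by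
    rw [MonoidHom.id_apply, ← blockDiag_smul (pullF_bd T f)]
    refine congrArg blockDiag (funext fun n => ?_)
    exact mulOp_smul (BM.of_continuous (pullF T n f)) c
  map_star' f := by
    rw [blockDiag_star (pullF_bd T f)]
    refine congrArg blockDiag (funext fun n => ?_)
    exact (mulOp_star (BM.of_continuous (pullF T n f))).symm

theorem rep0_apply (f : C₀(Rips (Vert T) 2, ℂ)) (v : RootL2) (n : ℕ) :
    rep0 T f v n = mulOp (pullF T n f) (v n) := blockDiag_apply (pullF_bd T f) v n

theorem pullF_small (f : C₀(Rips (Vert T) 2, ℂ)) {ε : ℝ} (hε : 0 < ε) :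
    ∀ᶠ n in cofinite, ∀ x, ‖f (rootPt T n x)‖ ≤ ε := by
  obtain ⟨K, hK, hKc⟩ := Filter.mem_cocompact.1
    ((zero_at_infty f) (Metric.closedBall_mem_nhds (0 : ℂ) hε))
  obtain ⟨F, hF⟩ := hK.elim_finite_subcover
    (fun v : Vert T => {p : Rips (Vert T) 2 | p.1 v ≠ 0})
    (fun v => isOpen_ne.preimage ((continuous_coord v).comp continuous_subtype_val))
    (fun p _ => by
      simp only [Set.mem_iUnion, Set.mem_ofPred_eq]
      by_contra h
      push Not at h
      have h0 : p.1 = 0 := lp.ext (funext h)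
      have h1 := p.2.2.1
      rw [h0, norm_zero] at h1
      exact zero_ne_one h1)
  refine eventually_cofinite.2 ((F.finite_toSet.image Vert.n).subset fun n hn => ?_)
  simp only [Set.mem_ofPred_eq, not_forall, not_le] at hn
  obtain ⟨x, hx⟩ := hn
  have hmem : rootPt T n x ∈ K := by
    by_contra h
    have := hKc h
    simp only [Set.mem_preimage, Metric.mem_closedBall, dist_zero_right] at this
    linarith
  obtain ⟨v, hv, hv'⟩ := Set.mem_iUnion₂.1 (hF hmem)
  obtain ⟨z, rfl, -⟩ := rootVec_support T hv'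
  exact ⟨_, hv, rfl⟩

theorem pullF_tendsto (f : C₀(Rips (Vert T) 2, ℂ)) :
    Tendsto (fun n => ‖mulOp (pullF T n f)‖) cofinite (𝓝 0) := by
  rw [Metric.tendsto_nhds]
  intro ε hε
  filter_upwards [pullF_small T f (half_pos hε)] with n hn
  rw [Real.dist_0_eq_abs, abs_norm]
  exact (mulOp_norm (BM.of_continuous _) hn).trans_lt (half_lt_self hε)

theorem block_comm_compact {s : ℕ → ℤ × ℤ → ℂ} (hs : BF s) (hsi : ∀ n, ShiftInv (s n))
    (f : C₀(Rips (Vert T) 2, ℂ)) :
    IsCompactOperator ⇑(opB s * rep0 T f - rep0 T f * opB s : RootL2 →L[ℂ] RootL2) := by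
  have hm := pullF_bd T f
  change IsCompactOperator
    ⇑(opB s * blockDiag (E := fun _ : ℕ => TorusL2) (fun n => mulOp (pullF T n f)) -
      blockDiag (E := fun _ : ℕ => TorusL2) (fun n => mulOp (pullF T n f)) * opB s)
  rw [opB, blockDiag_mul hs.bd hm, blockDiag_mul hm hs.bd,
    ← blockDiag_sub (hs.bd.mul hm) (hm.mul hs.bd)]
  refine blockDiag_compact ((hs.bd.mul hm).sub (hm.mul hs.bd))
    (fun n => commutator_compact (hs.bs n) (hsi n) _) ?_
  obtain ⟨C, hC⟩ := hs
  have h0 := (pullF_tendsto T f).const_mul (2 * C)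
  rw [mul_zero] at h0
  refine squeeze_zero (fun n => norm_nonneg _) (fun n => ?_) h0
  refine (norm_sub_le _ _).trans ((add_le_add (norm_mul_le _ _) (norm_mul_le _ _)).trans ?_)
  have := mul_le_mul_of_nonneg_right (diagOp_norm (hC n)) (norm_nonneg (mulOp (pullF T n f)))
  rw [mul_comm ‖mulOp (pullF T n f)‖]
  linarith

theorem block_defect_compact (f : C₀(Rips (Vert T) 2, ℂ)) :
    IsCompactOperator ⇑(rep0 T f * (1 - opB phasesC * opB phases) : RootL2 →L[ℂ] RootL2) := by
  rw [opB_mul BF_phasesC BF_phases, ← opB_one, ← opB_sub BF.one (BF_phasesC.mul BF_phases)]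
  have hm := pullF_bd T f
  change IsCompactOperator
    ⇑(blockDiag (E := fun _ : ℕ => TorusL2) (fun n => mulOp (pullF T n f)) * opB defects)
  rw [opB, blockDiag_mul hm BF_defects.bd]
  refine blockDiag_compact (hm.mul BF_defects.bd) (fun n => ?_) ?_
  · exact (diagOp_compact (BF_defects.bs n)
      (defects_eq n ▸ (phaseLike_sym (n + 3)).defect_tendsto)).clm_comp _
  · have h0 := (pullF_tendsto T f).mul_const 2
    rw [zero_mul] at h0
    exact squeeze_zero (fun n => norm_nonneg _) (fun n => (norm_mul_le _ _).trans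
      (mul_le_mul_of_nonneg_left (diagOp_norm (defects_norm n)) (norm_nonneg _))) h0

theorem phasesC_mul_comm : opB phases * opB phasesC = opB phasesC * opB phases := by
  rw [opB_mul BF_phases BF_phasesC, opB_mul BF_phasesC BF_phases, mul_comm phases]

theorem star_opB_phases : ContinuousLinearMap.adjoint (opB phases) = opB phasesC :=
  (ContinuousLinearMap.star_eq_adjoint _).symm.trans (opB_star BF_phases)

/-- The Hilbert space of the root tori. -/
noncomputable def rootHilb : Hilb :=
  haveI : TopologicalSpace.SeparableSpace TorusL2 := by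
    rw [← TopologicalSpace.isSeparable_univ_iff]
    refine ((Set.countable_range basis).isSeparable.span (R := ℂ)).closure.mono fun v _ => ?_
    exact dense_iff_topologicalClosure_eq_top.2 basis.dense_span v
  haveI := lp_separable (ι := ℕ) (E := fun _ => TorusL2)
  ⟨RootL2⟩

/-- The module of phases on the root tori. -/
noncomputable def phaseMod : FredMod (C₀(Rips (Vert T) 2, ℂ)) where
  H0 := rootHilb
  H1 := rootHilb
  ρ0 := rep0 T
  ρ1 := rep0 T
  W := opB phases
  V := opB phasesC
  commW f := block_comm_compact T BF_phases (fun n => (phaseLike_sym (n + 3)).shiftInv) f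
  commV f := block_comm_compact T BF_phasesC (fun n => (phaseLike_sym (n + 3)).shiftInv.conj) f
  sq0 f := by
    have h := (block_defect_compact T f).neg
    rw [← FunLike.coe_neg, ← mul_neg, neg_sub] at h
    exact h
  sq1 f := by
    have h := (block_defect_compact T f).neg
    rw [← FunLike.coe_neg, ← mul_neg, neg_sub, ← phasesC_mul_comm] at h
    exact h
  selfAdj f := by
    have h : ((rep0 T f).comp (opB phasesC - ContinuousLinearMap.adjoint (opB phases))) =
        (0 : RootL2 →L[ℂ] RootL2) := by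
      rw [star_opB_phases, sub_self, ContinuousLinearMap.comp_zero]
    exact h ▸ isCompactOperator_zero

theorem phaseMod_isTorusModule : IsTorusModule (phaseMod T) := by
  refine ⟨LinearIsometryEquiv.refl ℂ _, LinearIsometryEquiv.refl ℂ _,
    fun n => diagOp (phases n), phases, rootPt T, fun n => ⟨phaseLike_sym _,
      isMultiplier_diagOp (BF_phases.bs n), rootPt_continuous T n, rootPt_isRootPoint T n⟩,
    fun f (v : RootL2) n => ?_, fun f (v : RootL2) n => ?_,
    fun (v : RootL2) n => opB_apply BF_phases v n⟩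
  · change ⇑(rep0 T f v n : TorusL2) =ᵐ[volume] fun x => f (rootPt T n x) * (v n : TorusL2) x
    rw [rep0_apply]
    exact mulOp_coe (BM.of_continuous (pullF T n f)) (v n)
  · change ⇑(rep0 T f v n : TorusL2) =ᵐ[volume] fun x => f (rootPt T n x) * (v n : TorusL2) x
    rw [rep0_apply]
    exact mulOp_coe (BM.of_continuous (pullF T n f)) (v n)

theorem phases_far {n : ℕ} {f g : C₀(Rips (Vert T) 2, ℂ)} (h : FarApart f g 4) :
    mulOp (pullF T n g) * diagOp (phases n) * mulOp (pullF T n f) = 0 ∧
      mulOp (pullF T n g) * diagOp (phasesC n) * mulOp (pullF T n f) = 0 := by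
  have hsep : ∀ x y, pullF T n g x ≠ 0 → pullF T n f y ≠ 0 → Sep (n + 3) x y := by
    intro x y hx hy
    refine sep_of_not_near fun hn => ?_
    have hne : ∀ z, (rootPt T n z).1 (rootVert T ⟨n, gIdx n z⟩) ≠ 0 := fun z => by
      change rootVec T n z (rootVert T ⟨n, gIdx n z⟩) ≠ 0
      rw [rootVec_apply]
      exact (gridCoord_idx_pos n z).ne'
    have h1 := h (rootPt T n y) (rootPt T n x) hy hx _ _ (hne y) (hne x)
    have h2 := rootVert_near T hn.symm
    norm_num at h2
    linarith
  refine ⟨sym_propagation _ (BM.of_continuous _) (BM.of_continuous _) hsep, ?_⟩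
  have hsep' : ∀ x y, conj (pullF T n f x) ≠ 0 → conj (pullF T n g y) ≠ 0 → Sep (n + 3) x y := by
    intro x y hx hy
    have := hsep y x (fun e => hy (by rw [e, map_zero])) (fun e => hx (by rw [e, map_zero]))
    rcases this with e | e
    · exact Or.inl (by rwa [norm_sub_rev])
    · exact Or.inr (by rwa [norm_sub_rev])
  have hcm : ∀ e : C(Torus, ℂ), BM fun x => conj (e x) := fun e =>
    BM.of_continuous (star e)
  have h0 := congrArg star (sym_propagation (n + 3) (hcm (pullF T n f)) (hcm (pullF T n g)) hsep')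
  rw [star_zero, star_mul, star_mul, mulOp_star (hcm _), mulOp_star (hcm _),
    diagOp_star (phaseLike_sym (n + 3)).bs] at h0
  simpa only [Complex.conj_conj, ← mul_assoc] using! h0

theorem phaseMod_propagation (f g : C₀(Rips (Vert T) 2, ℂ)) (h : FarApart f g 4) :
    ((rep0 T g).comp ((opB phases).comp (rep0 T f)) = 0) ∧
      ((rep0 T g).comp ((opB phasesC).comp (rep0 T f)) = 0) := by
  constructor <;>
    refine ContinuousLinearMap.ext fun v => lp.ext (funext fun n => ?_)
  · simp only [ContinuousLinearMap.comp_apply, rep0_apply, opB_apply BF_phases, zero_apply]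
    exact DFunLike.congr_fun (phases_far T h).1 (v n)
  · simp only [ContinuousLinearMap.comp_apply, rep0_apply, opB_apply BF_phasesC, zero_apply]
    exact DFunLike.congr_fun (phases_far T h).2 (v n)

end VP212.TorusMod
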