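import Vale.Agent.P212.TorusMod.Phase

/-!
P212, torus module: the grid cells of a circle and the hat functions.
-/

open MeasureTheory Filter Topology

namespace VP212.TorusMod

/-- The representative in the unit interval. -/
noncomputable def rep (x : UnitAddCircle) : ℝ := (AddCircle.measurableEquivIco (1 : ℝ) 0 x : ℝ)

theorem coe_rep (x : UnitAddCircle) : ((rep x : ℝ) : UnitAddCircle) = x :=
  (AddCircle.equivIco (1 : ℝ) 0).symm_apply_apply x

theorem measurable_rep : Measurable rep :=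
  measurable_subtype_coe.comp (AddCircle.measurableEquivIco (1 : ℝ) 0).measurable

variable (L : ℕ)

/-- The cell of a point. -/
noncomputable def idx (x : UnitAddCircle) : ZMod L := ((⌊(L : ℝ) * rep x⌋ : ℤ) : ZMod L)

theorem measurableSet_idx (a : ZMod L) : MeasurableSet {x | idx L x = a} :=
  (Int.measurable_floor.comp (measurable_rep.const_mul (L : ℝ)))
    (MeasurableSpace.measurableSet_top (s := {m : ℤ | (m : ZMod L) = a}))

variable [NeZero L]

theorem scaled_norm (y : ℝ) :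
    ∃ k : ℤ, (L : ℝ) * ‖((y / L : ℝ) : UnitAddCircle)‖ = |y - (L * k : ℤ)| := by
  refine ⟨round (y / L), ?_⟩
  have hL : (0 : ℝ) < L := by exact_mod_cast NeZero.pos L
  rw [UnitAddCircle.norm_eq, ← abs_of_pos hL, ← abs_mul, abs_of_pos hL, mul_sub,
    mul_div_cancel₀ _ hL.ne']
  push_cast
  rfl

theorem scaled_norm_le (y : ℝ) (k : ℤ) :
    (L : ℝ) * ‖((y / L : ℝ) : UnitAddCircle)‖ ≤ |y - (L * k : ℤ)| := by
  have hL : (0 : ℝ) < L := by exact_mod_cast NeZero.pos L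
  rw [UnitAddCircle.norm_eq, ← abs_of_pos hL, ← abs_mul, abs_of_pos hL]
  have h := mul_le_mul_of_nonneg_left (round_le (y / L) k) hL.le
  rw [← abs_of_pos hL, ← abs_mul, ← abs_mul, abs_of_pos hL] at h
  refine h.trans (le_of_eq (congrArg _ ?_))
  push_cast
  rw [mul_sub, mul_div_cancel₀ _ hL.ne']

/-- The scaled distance of a point to a grid point. -/
noncomputable def gdist (x : UnitAddCircle) (a : ZMod L) : ℝ :=
  (L : ℝ) * ‖x - ((((a.val : ℝ)) / (L : ℝ) : ℝ) : UnitAddCircle)‖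

omit [NeZero L] in
theorem hat_eq (x : UnitAddCircle) (a : ZMod L) : hat L x a = max 0 (1 - gdist L x a) := rfl

theorem sub_coe_eq (x : UnitAddCircle) (r : ℝ) :
    x - ((r / L : ℝ) : UnitAddCircle) = ((((L : ℝ) * rep x - r) / L : ℝ) : UnitAddCircle) := by
  have hL : (L : ℝ) ≠ 0 := by exact_mod_cast NeZero.ne L
  conv_lhs => rw [← coe_rep x]
  rw [← AddCircle.coe_sub, sub_div, mul_div_cancel_left₀ _ hL]

theorem gdist_exists (x : UnitAddCircle) (a : ZMod L) :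
    ∃ m : ℤ, (m : ZMod L) = a ∧ gdist L x a = |(L : ℝ) * rep x - m| := by
  obtain ⟨k, hk⟩ := scaled_norm L ((L : ℝ) * rep x - a.val)
  refine ⟨(a.val : ℤ) + L * k, by simp, ?_⟩
  rw [gdist, sub_coe_eq, hk]
  push_cast
  congr 1
  ring

theorem gdist_le (x : UnitAddCircle) {a : ZMod L} {m : ℤ} (hm : (m : ZMod L) = a) :
    gdist L x a ≤ |(L : ℝ) * rep x - m| := by
  obtain ⟨k, hk⟩ := (ZMod.intCast_eq_intCast_iff_dvd_sub (a.val : ℤ) m L).1 (by simp [hm])
  rw [gdist, sub_coe_eq]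
  refine (scaled_norm_le L _ k).trans (le_of_eq ?_)
  rw [show m = (a.val : ℤ) + L * k by omega]
  push_cast
  congr 1
  ring

theorem gdist_ge_one (x : UnitAddCircle) {a : ZMod L} (h0 : a ≠ idx L x) (h1 : a ≠ idx L x + 1) :
    1 ≤ gdist L x a := by
  obtain ⟨m, hm, hd⟩ := gdist_exists L x a
  rw [hd]
  set i := ⌊(L : ℝ) * rep x⌋ with hi
  have hlo := Int.floor_le ((L : ℝ) * rep x)
  have hhi := Int.lt_floor_add_one ((L : ℝ) * rep x)
  rw [← hi] at hlo hhi
  have h0' : m ≠ i := fun h => h0 (by rw [← hm, h]; rfl)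
  have h1' : m ≠ i + 1 := fun h => h1 (by rw [← hm, h, Int.cast_add, Int.cast_one]; rfl)
  rcases lt_or_gt_of_ne h0' with h | h
  · have : (m : ℝ) + 1 ≤ i := by exact_mod_cast h
    exact le_trans (by linarith) (le_abs_self _)
  · have : (i : ℝ) + 2 ≤ m := by exact_mod_cast (show i + 2 ≤ m by omega)
    exact le_trans (by linarith) (neg_le_abs _)

theorem hat_support {x : UnitAddCircle} {a : ZMod L} (h : hat L x a ≠ 0) :
    a = idx L x ∨ a = idx L x + 1 := by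
  by_contra hc
  push Not at hc
  refine h ?_
  rw [hat_eq]
  exact max_eq_left (by linarith [gdist_ge_one L x hc.1 hc.2])

theorem gdist_eq_of_near (hL : 3 ≤ L) (x : UnitAddCircle) {a : ZMod L} {m : ℤ}
    (hm : (m : ZMod L) = a) (h : |(L : ℝ) * rep x - m| ≤ 1) :
    gdist L x a = |(L : ℝ) * rep x - m| := by
  refine le_antisymm (gdist_le L x hm) ?_
  obtain ⟨m', hm', hd⟩ := gdist_exists L x a
  rw [hd]
  by_cases he : m' = m
  · rw [he]
  obtain ⟨k, hk⟩ := (ZMod.intCast_eq_intCast_iff_dvd_sub m m' L).1 (hm.trans hm'.symm)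
  have hk0 : k ≠ 0 := fun h => he (by rw [h, mul_zero] at hk; omega)
  have h1 : (1 : ℝ) ≤ |(k : ℝ)| := by exact_mod_cast Int.one_le_abs hk0
  have hL' : (3 : ℝ) ≤ L := by exact_mod_cast hL
  have hk' : (m' : ℝ) - m = L * k := by exact_mod_cast hk
  have h2 : |(m' : ℝ) - m| = L * |(k : ℝ)| := by
    rw [hk', abs_mul, Nat.abs_cast]
  have h3 := abs_sub ((L : ℝ) * rep x - m) ((L : ℝ) * rep x - m')
  rw [sub_sub_sub_cancel_left, h2] at h3
  nlinarith

theorem hat_idx (hL : 3 ≤ L) (x : UnitAddCircle) :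
    hat L x (idx L x) = 1 - ((L : ℝ) * rep x - ⌊(L : ℝ) * rep x⌋) := by
  have hlo := Int.floor_le ((L : ℝ) * rep x)
  have hhi := Int.lt_floor_add_one ((L : ℝ) * rep x)
  have ha : |(L : ℝ) * rep x - ⌊(L : ℝ) * rep x⌋| = (L : ℝ) * rep x - ⌊(L : ℝ) * rep x⌋ :=
    abs_of_nonneg (by linarith)
  rw [hat_eq, gdist_eq_of_near L hL x (a := idx L x) (m := ⌊(L : ℝ) * rep x⌋) rfl
    (by rw [ha]; linarith), ha]
  exact max_eq_right (by linarith)

theorem hat_idx_succ (hL : 3 ≤ L) (x : UnitAddCircle) :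
    hat L x (idx L x + 1) = (L : ℝ) * rep x - ⌊(L : ℝ) * rep x⌋ := by
  have hlo := Int.floor_le ((L : ℝ) * rep x)
  have hhi := Int.lt_floor_add_one ((L : ℝ) * rep x)
  have ha : |(L : ℝ) * rep x - ((⌊(L : ℝ) * rep x⌋ + 1 : ℤ) : ℝ)| =
      ⌊(L : ℝ) * rep x⌋ + 1 - (L : ℝ) * rep x := by
    push_cast
    rw [abs_of_nonpos (by linarith)]
    ring
  rw [hat_eq, gdist_eq_of_near L hL x (m := ⌊(L : ℝ) * rep x⌋ + 1)
    (by rw [Int.cast_add, Int.cast_one]; rfl)
    (by rw [ha]; linarith), ha, max_eq_right (by linarith)]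
  ring

theorem hat_idx_pos (hL : 3 ≤ L) (x : UnitAddCircle) : 0 < hat L x (idx L x) := by
  rw [hat_idx L hL x]
  linarith [Int.lt_floor_add_one ((L : ℝ) * rep x)]

theorem hat_sum (hL : 3 ≤ L) (x : UnitAddCircle) : ∑ a, hat L x a = 1 := by
  have : Fact (1 < L) := ⟨by omega⟩
  rw [Finset.sum_eq_add_of_mem (idx L x) (idx L x + 1) (Finset.mem_univ _) (Finset.mem_univ _)
    (by simp) (fun c _ hc => by
      by_contra h
      rcases hat_support L h with h' | h'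
      · exact hc.1 h'
      · exact hc.2 h'), hat_idx L hL x, hat_idx_succ L hL x]
  ring

/-- Nearby points lie in nearby cells. -/
theorem idx_near {x y : UnitAddCircle} (h : ‖x - y‖ ≤ 1 / (L : ℝ)) :
    ∃ r : ℤ, |r| ≤ 2 ∧ idx L y = idx L x + r := by
  have hL : (0 : ℝ) < L := by exact_mod_cast NeZero.pos L
  obtain ⟨k, hk⟩ := scaled_norm L ((L : ℝ) * rep y - (L : ℝ) * rep x)
  rw [sub_div, mul_div_cancel_left₀ _ hL.ne', mul_div_cancel_left₀ _ hL.ne', AddCircle.coe_sub,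
    coe_rep, coe_rep, norm_sub_rev] at hk
  have hd : |(L : ℝ) * rep y - (L : ℝ) * rep x - (L * k : ℤ)| ≤ 1 := by
    rw [← hk]
    rw [le_div_iff₀ hL] at h
    linarith
  obtain ⟨hd1, hd2⟩ := abs_le.1 hd
  refine ⟨⌊(L : ℝ) * rep y⌋ - L * k - ⌊(L : ℝ) * rep x⌋, abs_le.2 ⟨?_, ?_⟩, ?_⟩
  · have h1 : ((⌊(L : ℝ) * rep x⌋ - 1 + L * k : ℤ) : ℝ) ≤ (L : ℝ) * rep y := by
      push_cast at hd1 ⊢
      linarith [Int.floor_le ((L : ℝ) * rep x)]
    have := Int.le_floor.2 h1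
    omega
  · have h1 : (L : ℝ) * rep y < ((⌊(L : ℝ) * rep x⌋ + 2 + L * k + 1 : ℤ) : ℝ) := by
      push_cast at hd2 ⊢
      linarith [Int.lt_floor_add_one ((L : ℝ) * rep x)]
    have := Int.floor_lt.2 h1
    omega
  · simp [idx]

end VP212.TorusMod
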