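import Vale.Agent.P212.Base.Torus
import Vale.Agent.P212.TorusMod.Block

/-!
P212, torus module: square integrable functions on the torus, characters, multiplication
operators by bounded functions and multipliers.
-/

open scoped InnerProductSpace ComplexConjugate
open MeasureTheory Filter Topology Submodule

namespace VP212.TorusMod

instance circleProb : IsProbabilityMeasure (volume : Measure UnitAddCircle) :=
  ⟨by simp⟩

instance torusProb : IsProbabilityMeasure (volume : Measure Torus) := by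
  rw [Measure.volume_eq_prod]
  infer_instance

/-! ### Multiplication by bounded functions -/

/-- A bounded measurable function. -/
def BM (g : Torus → ℂ) : Prop := Measurable g ∧ ∃ C, ∀ x, ‖g x‖ ≤ C

theorem BM.of_continuous (f : C(Torus, ℂ)) : BM f :=
  ⟨f.continuous.measurable, ‖f‖, f.norm_coe_le_norm⟩

theorem BM.indicator {A : Set Torus} (hA : MeasurableSet A) :
    BM (A.indicator fun _ => (1 : ℂ)) :=
  ⟨measurable_const.indicator hA, 1, fun x => by
    by_cases h : x ∈ A <;> simp [h]⟩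

theorem BM.mul {f g : Torus → ℂ} (hf : BM f) (hg : BM g) : BM (f * g) := by
  obtain ⟨hfm, C, hC⟩ := hf
  obtain ⟨hgm, D, hD⟩ := hg
  refine ⟨hfm.mul hgm, C * D, fun x => ?_⟩
  rw [Pi.mul_apply, norm_mul]
  exact mul_le_mul (hC x) (hD x) (norm_nonneg _) ((norm_nonneg _).trans (hC x))

theorem BM.memLp {g : Torus → ℂ} (hg : BM g) (v : TorusL2) :
    MemLp (fun x => g x * v x) 2 (volume : Measure Torus) := by
  obtain ⟨hm, C, hC⟩ := hg
  refine MemLp.of_le_mul (Lp.memLp v) (hm.aestronglyMeasurable.mul (Lp.aestronglyMeasurable v))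
    (c := C) (Eventually.of_forall fun x => ?_)
  rw [norm_mul]
  exact mul_le_mul_of_nonneg_right (hC x) (norm_nonneg _)

open Classical in
/-- Multiplication by a bounded measurable function. -/
noncomputable def mulOp (g : Torus → ℂ) : TorusL2 →L[ℂ] TorusL2 :=
  if h : BM g then
    LinearMap.mkContinuous
      { toFun := fun v => (h.memLp v).toLp _
        map_add' := fun v w => by
          refine Lp.ext ?_
          filter_upwards [(h.memLp (v + w)).coeFn_toLp, Lp.coeFn_add v w,
            Lp.coeFn_add ((h.memLp v).toLp _) ((h.memLp w).toLp _), (h.memLp v).coeFn_toLp,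
            (h.memLp w).coeFn_toLp] with x h1 h2 h3 h4 h5
          rw [h1, h3, Pi.add_apply, h4, h5, h2, Pi.add_apply, mul_add]
        map_smul' := fun c v => by
          refine Lp.ext ?_
          filter_upwards [(h.memLp (c • v)).coeFn_toLp, Lp.coeFn_smul c v,
            Lp.coeFn_smul c ((h.memLp v).toLp _), (h.memLp v).coeFn_toLp] with x h1 h2 h3 h4
          rw [h1, RingHom.id_apply, h3, Pi.smul_apply, h4, h2, Pi.smul_apply, smul_eq_mul,
            smul_eq_mul]
          ring }
      h.2.choose fun v => by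
        refine Lp.norm_le_mul_norm_of_ae_le_mul ?_
        filter_upwards [(h.memLp v).coeFn_toLp] with x hx
        change ‖((h.memLp v).toLp _ : TorusL2) x‖ ≤ _
        rw [hx, norm_mul]
        exact mul_le_mul_of_nonneg_right (h.2.choose_spec x) (norm_nonneg _)
  else 0

theorem mulOp_coe {g : Torus → ℂ} (hg : BM g) (v : TorusL2) :
    ⇑(mulOp g v) =ᵐ[volume] fun x => g x * v x := by
  rw [mulOp, dif_pos hg]
  exact (hg.memLp v).coeFn_toLp

theorem mulOp_norm {g : Torus → ℂ} (hg : BM g) {C : ℝ} (hC : ∀ x, ‖g x‖ ≤ C) :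
    ‖mulOp g‖ ≤ C := by
  refine ContinuousLinearMap.opNorm_le_bound _ ((norm_nonneg (g 0)).trans (hC 0)) fun v => ?_
  refine Lp.norm_le_mul_norm_of_ae_le_mul ?_
  filter_upwards [mulOp_coe hg v] with x hx
  rw [hx, norm_mul]
  exact mul_le_mul_of_nonneg_right (hC x) (norm_nonneg _)

theorem mulOp_mul {f g : Torus → ℂ} (hf : BM f) (hg : BM g) :
    mulOp f * mulOp g = mulOp (f * g) := by
  refine ContinuousLinearMap.ext fun v => Lp.ext ?_
  filter_upwards [mulOp_coe hf (mulOp g v), mulOp_coe hg v, mulOp_coe (hf.mul hg) v]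
    with x h1 h2 h3
  change (mulOp f (mulOp g v) : TorusL2) x = _
  rw [h1, h2, h3, Pi.mul_apply]
  ring

theorem mulOp_congr {f g : Torus → ℂ} (h : f = g) : mulOp f = mulOp g := congrArg _ h

theorem mulOp_add {f g : Torus → ℂ} (hf : BM f) (hg : BM g) :
    mulOp (f + g) = mulOp f + mulOp g := by
  have hfg : BM (f + g) := by
    obtain ⟨hfm, C, hC⟩ := hf
    obtain ⟨hgm, D, hD⟩ := hg
    exact ⟨hfm.add hgm, C + D, fun x => (norm_add_le _ _).trans (add_le_add (hC x) (hD x))⟩
  refine ContinuousLinearMap.ext fun v => Lp.ext ?_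
  filter_upwards [mulOp_coe hfg v, mulOp_coe hf v, mulOp_coe hg v,
    Lp.coeFn_add (mulOp f v) (mulOp g v)] with x h1 h2 h3 h4
  rw [h1, add_apply, h4, Pi.add_apply, Pi.add_apply, h2, h3]
  ring

theorem mulOp_smul {f : Torus → ℂ} (hf : BM f) (c : ℂ) : mulOp (c • f) = c • mulOp f := by
  have hcf : BM (c • f) := by
    obtain ⟨hfm, C, hC⟩ := hf
    exact ⟨hfm.const_smul c, ‖c‖ * C, fun x => by
      rw [Pi.smul_apply, norm_smul]; exact mul_le_mul_of_nonneg_left (hC x) (norm_nonneg _)⟩
  refine ContinuousLinearMap.ext fun v => Lp.ext ?_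
  filter_upwards [mulOp_coe hcf v, mulOp_coe hf v, Lp.coeFn_smul c (mulOp f v)] with x h1 h2 h3
  rw [h1, smul_apply, h3, Pi.smul_apply, Pi.smul_apply, h2, smul_eq_mul, smul_eq_mul]
  ring

theorem mulOp_one {f : Torus → ℂ} (h : ∀ x, f x = 1) : mulOp f = 1 := by
  have hf : BM f := by
    rw [show f = fun _ => 1 from funext h]
    exact ⟨measurable_const, 1, fun _ => by simp⟩
  refine ContinuousLinearMap.ext fun v => Lp.ext ?_
  filter_upwards [mulOp_coe hf v] with x hx
  rw [hx, h, one_mul]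
  rfl

theorem mulOp_zero {f : Torus → ℂ} (h : ∀ x, f x = 0) : mulOp f = 0 := by
  have hf : BM f := by
    rw [show f = fun _ => 0 from funext h]
    exact ⟨measurable_const, 0, fun _ => by simp⟩
  refine ContinuousLinearMap.ext fun v => Lp.ext ?_
  filter_upwards [mulOp_coe hf v, Lp.coeFn_zero ℂ 2 (volume : Measure Torus)] with x hx h0
  rw [hx, h, zero_mul]
  exact h0.symm

theorem mulOp_star {g : Torus → ℂ} (hg : BM g) :
    star (mulOp g) = mulOp (fun x => conj (g x)) := by
  have hg' : BM (fun x => conj (g x)) :=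
    ⟨RCLike.continuous_conj.measurable.comp hg.1, hg.2.choose, fun x => by
      simpa using hg.2.choose_spec x⟩
  rw [ContinuousLinearMap.star_eq_adjoint]
  symm
  rw [ContinuousLinearMap.eq_adjoint_iff]
  intro v w
  rw [L2.inner_def, L2.inner_def]
  refine integral_congr_ae ?_
  filter_upwards [mulOp_coe hg' v, mulOp_coe hg w] with x h1 h2
  rw [h1, h2]
  simp only [RCLike.inner_apply, map_mul, Complex.conj_conj]
  ring

/-! ### Characters -/

/-- The characters of the torus. -/
noncomputable def chr (k : ℤ × ℤ) : C(Torus, ℂ) :=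
  ⟨fun x => fourier k.1 x.1 * fourier k.2 x.2, by fun_prop⟩

theorem chr_apply (k : ℤ × ℤ) (x : Torus) : chr k x = fourier k.1 x.1 * fourier k.2 x.2 := rfl

theorem chr_add (k l : ℤ × ℤ) (x : Torus) : chr (k + l) x = chr k x * chr l x := by
  simp [chr_apply]
  ring

theorem chr_neg (k : ℤ × ℤ) (x : Torus) : chr (-k) x = conj (chr k x) := by
  simp [chr_apply]

theorem chr_zero : chr 0 = 1 := ContinuousMap.ext fun x => by simp [chr_apply]

theorem chr_norm_apply (k : ℤ × ℤ) (x : Torus) : ‖chr k x‖ = 1 := by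
  simp only [chr_apply, fourier_apply, norm_mul, Circle.norm_coe, mul_one]

theorem BM_chr (k : ℤ × ℤ) : BM (chr k) := BM.of_continuous _

/-- The characters as vectors. -/
noncomputable def chrLp (k : ℤ × ℤ) : TorusL2 :=
  ContinuousMap.toLp (E := ℂ) 2 volume ℂ (chr k)

theorem chrLp_coe (k : ℤ × ℤ) : ⇑(chrLp k) =ᵐ[volume] chr k :=
  ContinuousMap.coeFn_toLp volume (chr k)

theorem isChar_chrLp (k : ℤ × ℤ) : IsChar k (chrLp k) := chrLp_coe k

theorem isChar_eq {k : ℤ × ℤ} {e : TorusL2} (h : IsChar k e) : e = chrLp k :=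
  Lp.ext (h.trans (chrLp_coe k).symm)

theorem haar_eq_volume : (AddCircle.haarAddCircle : Measure UnitAddCircle) = volume := by
  rw [AddCircle.volume_eq_smul_haarAddCircle]
  simp

theorem integral_fourier (j : ℤ) :
    ∫ t : UnitAddCircle, fourier j t = if j = 0 then 1 else 0 := by
  split_ifs with h
  · simp [h]
  · rw [← haar_eq_volume]
    exact integral_eq_zero_of_add_right_eq_neg (μ := AddCircle.haarAddCircle)
      (fourier_add_half_inv_index h one_pos)

theorem integral_chr (k : ℤ × ℤ) : ∫ x, chr k x = if k = 0 then 1 else 0 := by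
  simp only [chr_apply, Measure.volume_eq_prod]
  rw [integral_prod_mul (fun a => fourier k.1 a) (fun b => fourier k.2 b), integral_fourier,
    integral_fourier]
  rcases k with ⟨i, j⟩
  by_cases hi : i = 0 <;> by_cases hj : j = 0 <;> simp [hi, hj, Prod.ext_iff]

theorem chr_orthonormal : Orthonormal ℂ chrLp := by
  rw [orthonormal_iff_ite]
  intro i j
  rw [chrLp, chrLp, ContinuousMap.inner_toLp]
  have : ∀ x, chr j x * conj (chr i x) = chr (j - i) x := fun x => by
    rw [sub_eq_add_neg, chr_add, chr_neg]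
  simp only [this, integral_chr]
  simp [sub_eq_zero, eq_comm]

theorem chr_span : (span ℂ (Set.range chr)).topologicalClosure = ⊤ := by
  set A : StarSubalgebra ℂ C(Torus, ℂ) :=
    { toSubalgebra := Algebra.adjoin ℂ (Set.range chr)
      star_mem' := by
        change Algebra.adjoin ℂ (Set.range chr) ≤ star (Algebra.adjoin ℂ (Set.range chr))
        refine Algebra.adjoin_le ?_
        rintro _ ⟨k, rfl⟩
        refine Algebra.subset_adjoin ⟨-k, ?_⟩
        ext1 x
        simp [chr_neg] } with hA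
  have hspan : Subalgebra.toSubmodule A.toSubalgebra = span ℂ (Set.range chr) := by
    apply Algebra.adjoin_eq_span_of_subset
    refine .trans (fun x => Submonoid.closure_induction (fun _ => id) ⟨0, chr_zero⟩ ?_) subset_span
    rintro _ _ _ _ ⟨k, rfl⟩ ⟨l, rfl⟩
    exact ⟨k + l, ContinuousMap.ext fun x => chr_add k l x⟩
  have hsep : A.SeparatesPoints := by
    intro x y hxy
    have h : x.1 ≠ y.1 ∨ x.2 ≠ y.2 := by
      by_contra h
      push Not at h
      exact hxy (Prod.ext h.1 h.2)
    rcases h with h | h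
    · refine ⟨_, ⟨chr (1, 0), Algebra.subset_adjoin ⟨_, rfl⟩, rfl⟩, ?_⟩
      simp only [chr_apply, fourier_zero, mul_one, fourier_one]
      exact fun hh => h (AddCircle.injective_toCircle one_ne_zero (Circle.ext hh))
    · refine ⟨_, ⟨chr (0, 1), Algebra.subset_adjoin ⟨_, rfl⟩, rfl⟩, ?_⟩
      simp only [chr_apply, fourier_zero, one_mul, fourier_one]
      exact fun hh => h (AddCircle.injective_toCircle one_ne_zero (Circle.ext hh))
  have := ContinuousMap.starSubalgebra_topologicalClosure_eq_top_of_separatesPoints A hsep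
  rw [← hspan]
  exact congr_arg (Subalgebra.toSubmodule <| StarSubalgebra.toSubalgebra ·) this

/-- The Fourier basis of the torus. -/
noncomputable def basis : HilbertBasis (ℤ × ℤ) ℂ TorusL2 :=
  HilbertBasis.mk chr_orthonormal (by
    have h := (ContinuousMap.toLp_denseRange ℂ (volume : Measure Torus) ℂ
      (p := 2) (by simp)).topologicalClosure_map_submodule chr_span
    rw [map_span, ← Set.range_comp] at h
    exact h.ge)

theorem basis_coe : ⇑basis = chrLp := HilbertBasis.coe_mk _ _

/-! ### Multipliers -/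

/-- Scalars as operators of the lines. -/
noncomputable def scal (m : ℤ × ℤ → ℂ) : (ℤ × ℤ) → (ℂ →L[ℂ] ℂ) := fun k => m k • 1

/-- The multiplier with symbol `m`. -/
noncomputable def diagOp (m : ℤ × ℤ → ℂ) : TorusL2 →L[ℂ] TorusL2 :=
  (basis.repr.symm.toContinuousLinearEquiv : _ →L[ℂ] TorusL2).comp
    ((blockDiag (E := fun _ : ℤ × ℤ => ℂ) (scal m)).comp
      (basis.repr.toContinuousLinearEquiv : TorusL2 →L[ℂ] _))

/-- A bounded symbol. -/
def BS (m : ℤ × ℤ → ℂ) : Prop := ∃ C, ∀ k, ‖m k‖ ≤ C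

theorem norm_scal (m : ℤ × ℤ → ℂ) (k : ℤ × ℤ) : ‖scal m k‖ = ‖m k‖ := by
  simp [scal, norm_smul]

theorem BS.scal {m : ℤ × ℤ → ℂ} (h : BS m) : BdFam (scal m) :=
  .of_le h.choose fun k => (norm_scal m k).trans_le (h.choose_spec k)

theorem diagOp_repr {m : ℤ × ℤ → ℂ} (h : BS m) (v : TorusL2) (k : ℤ × ℤ) :
    basis.repr (diagOp m v) k = m k * basis.repr v k := by
  simp only [diagOp, ContinuousLinearMap.comp_apply, ContinuousLinearEquiv.coe_coe,
    LinearIsometryEquiv.coe_toContinuousLinearEquiv, LinearIsometryEquiv.apply_symm_apply]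
  rw [blockDiag_apply h.scal]
  simp [scal]

theorem repr_ext {A B : TorusL2 →L[ℂ] TorusL2}
    (h : ∀ v k, basis.repr (A v) k = basis.repr (B v) k) : A = B :=
  ContinuousLinearMap.ext fun v => basis.repr.injective (lp.ext (funext (h v)))

theorem diagOp_basis {m : ℤ × ℤ → ℂ} (h : BS m) (k : ℤ × ℤ) :
    diagOp m (chrLp k) = m k • chrLp k := by
  refine basis.repr.injective (lp.ext (funext fun j => ?_))
  rw [diagOp_repr h, map_smul, lp.coeFn_smul, Pi.smul_apply, smul_eq_mul]
  rw [← basis_coe, HilbertBasis.repr_self]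
  by_cases hj : j = k
  · subst hj; rfl
  · simp [lp.single_apply, hj]

theorem isMultiplier_diagOp {m : ℤ × ℤ → ℂ} (h : BS m) : IsMultiplier m (diagOp m) := by
  intro k e he
  rw [isChar_eq he, diagOp_basis h]

theorem BS.add {m n : ℤ × ℤ → ℂ} (hm : BS m) (hn : BS n) : BS (m + n) :=
  ⟨hm.choose + hn.choose, fun k =>
    (norm_add_le _ _).trans (add_le_add (hm.choose_spec k) (hn.choose_spec k))⟩

theorem BS.sub {m n : ℤ × ℤ → ℂ} (hm : BS m) (hn : BS n) : BS (m - n) :=
  ⟨hm.choose + hn.choose, fun k =>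
    (norm_sub_le _ _).trans (add_le_add (hm.choose_spec k) (hn.choose_spec k))⟩

theorem BS.neg {m : ℤ × ℤ → ℂ} (hm : BS m) : BS (-m) :=
  ⟨hm.choose, fun k => by rw [Pi.neg_apply, norm_neg]; exact hm.choose_spec k⟩

theorem BS.mul {m n : ℤ × ℤ → ℂ} (hm : BS m) (hn : BS n) : BS (m * n) :=
  ⟨hm.choose * hn.choose, fun k => by
    rw [Pi.mul_apply, norm_mul]
    exact mul_le_mul (hm.choose_spec k) (hn.choose_spec k) (norm_nonneg _)
      ((norm_nonneg _).trans (hm.choose_spec k))⟩

theorem BS.one : BS 1 := ⟨1, fun k => by simp⟩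

theorem BS.conj {m : ℤ × ℤ → ℂ} (hm : BS m) : BS fun k => conj (m k) :=
  ⟨hm.choose, fun k => by simpa using hm.choose_spec k⟩

theorem diagOp_mul {m n : ℤ × ℤ → ℂ} (hm : BS m) (hn : BS n) :
    diagOp m * diagOp n = diagOp (m * n) :=
  repr_ext fun v k => by
    rw [mul_apply_eq_comp, diagOp_repr hm, diagOp_repr hn, diagOp_repr (hm.mul hn)]
    exact (mul_assoc _ _ _).symm

theorem diagOp_add {m n : ℤ × ℤ → ℂ} (hm : BS m) (hn : BS n) :
    diagOp (m + n) = diagOp m + diagOp n :=
  repr_ext fun v k => by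
    rw [diagOp_repr (hm.add hn), add_apply, map_add, lp.coeFn_add, Pi.add_apply, Pi.add_apply,
      diagOp_repr hm, diagOp_repr hn]
    ring

theorem diagOp_neg {m : ℤ × ℤ → ℂ} (hm : BS m) : diagOp (-m) = -diagOp m :=
  repr_ext fun v k => by
    rw [diagOp_repr hm.neg, neg_apply, map_neg, lp.coeFn_neg, Pi.neg_apply, Pi.neg_apply,
      diagOp_repr hm]
    ring

theorem diagOp_sub {m n : ℤ × ℤ → ℂ} (hm : BS m) (hn : BS n) :
    diagOp (m - n) = diagOp m - diagOp n := by
  rw [sub_eq_add_neg, sub_eq_add_neg, diagOp_add hm hn.neg, diagOp_neg hn]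

theorem diagOp_one : diagOp 1 = 1 :=
  repr_ext fun v k => by
    rw [diagOp_repr BS.one, Pi.one_apply, one_mul]
    rfl

theorem diagOp_star {m : ℤ × ℤ → ℂ} (hm : BS m) :
    star (diagOp m) = diagOp fun k => conj (m k) := by
  rw [ContinuousLinearMap.star_eq_adjoint]
  symm
  rw [ContinuousLinearMap.eq_adjoint_iff]
  intro v w
  rw [← basis.repr.inner_map_map, ← basis.repr.inner_map_map v, lp.inner_eq_tsum,
    lp.inner_eq_tsum]
  refine tsum_congr fun k => ?_
  rw [diagOp_repr hm.conj, diagOp_repr hm]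
  simp only [RCLike.inner_apply, map_mul, Complex.conj_conj]
  ring

theorem diagOp_norm {m : ℤ × ℤ → ℂ} {C : ℝ} (hC : ∀ k, ‖m k‖ ≤ C) : ‖diagOp m‖ ≤ C := by
  have hC0 : 0 ≤ C := (norm_nonneg _).trans (hC 0)
  refine ContinuousLinearMap.opNorm_le_bound _ hC0 fun v => ?_
  simp only [diagOp, ContinuousLinearMap.comp_apply, ContinuousLinearEquiv.coe_coe,
    LinearIsometryEquiv.coe_toContinuousLinearEquiv, LinearIsometryEquiv.norm_map]
  refine (ContinuousLinearMap.le_opNorm _ _).trans ?_
  rw [LinearIsometryEquiv.norm_map]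
  exact mul_le_mul_of_nonneg_right
    (blockDiag_norm hC0 fun k => (norm_scal m k).trans_le (hC k)) (norm_nonneg _)

theorem diagOp_compact {m : ℤ × ℤ → ℂ} (hm : BS m) (h0 : Tendsto m cofinite (𝓝 0)) :
    IsCompactOperator (diagOp m) := by
  have hb := blockDiag_compact hm.scal
    (fun k => isCompactOperator_of_locallyCompactSpace_rng (scal m k))
    (by simpa only [norm_scal] using tendsto_zero_iff_norm_tendsto_zero.1 h0)
  have h1 := hb.comp_clm (basis.repr.toContinuousLinearEquiv : TorusL2 →L[ℂ] lp _ 2)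
  have h2 := h1.clm_comp
    (basis.repr.symm.toContinuousLinearEquiv : lp (fun _ : ℤ × ℤ => ℂ) 2 →L[ℂ] TorusL2)
  unfold diagOp
  simp only [ContinuousLinearMap.coe_comp]
  exact h2

end VP212.TorusMod
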