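import Vale.Agent.P212.TorusMod.Fred

/-!
P212, torus module: nondegeneracy of the representation.
-/

open scoped InnerProductSpace ZeroAtInfty
open MeasureTheory Filter Topology Submodule

namespace VP212.TorusMod

variable (T : Tower)

/-- The mass of a point on the roots of one component. -/
noncomputable def rootMass (n : ℕ) (p : Rips (Vert T) 2) : ℝ :=
  ∑ z : Grid n, p.1 (rootVert T ⟨n, z⟩)

theorem rootMass_rootPt (n : ℕ) (x : Torus) : rootMass T n (rootPt T n x) = 1 := by
  rw [← gridCoord_sum n x]
  exact Finset.sum_congr rfl fun z _ => rootVec_apply T n x z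

/-- The points whose support lies in a finite set form a compact set. -/
theorem isCompact_supported (F : Finset (Vert T)) :
    IsCompact {p : Rips (Vert T) 2 | ∀ v ∉ F, p.1 v = 0} := by
  classical
  set Φ : (↥F → ℝ) → lp (fun _ : Vert T => ℝ) 1 :=
    fun c => ∑ v : ↥F, lp.single 1 (v : Vert T) (c v) with hΦ
  have hΦc : Continuous Φ := continuous_finsetSum _ fun v _ =>
    (lp.singleContinuousLinearMap ℝ (fun _ : Vert T => ℝ) 1 (v : Vert T)).continuous.comp
      (continuous_apply v)
  have happ : ∀ c v, Φ c v = if h : v ∈ F then c ⟨v, h⟩ else 0 := by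
    intro c v
    rw [hΦ, lp.coeFn_sum, Finset.sum_apply]
    split_ifs with h
    · rw [Finset.sum_eq_single (⟨v, h⟩ : ↥F)]
      · simp
      · intro w _ hw
        rw [lp.single_apply, Pi.single_eq_of_ne fun e => hw (Subtype.ext e.symm)]
      · simp
    · exact Finset.sum_eq_zero fun w _ => by
        rw [lp.single_apply, Pi.single_eq_of_ne fun e => h (by rw [e]; exact w.2)]
  have hnorm : ∀ c, ‖Φ c‖ = ∑ v, |c v| := by
    intro c
    rw [lp.norm_eq_tsum_rpow (by simp)]
    simp only [ENNReal.toReal_one, Real.rpow_one, div_one, Real.norm_eq_abs]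
    rw [tsum_eq_sum (s := F) fun v hv => by rw [happ, dif_neg hv, abs_zero],
      ← Finset.sum_coe_sort]
    exact Finset.sum_congr rfl fun v _ => by rw [happ, dif_pos v.2]
  set A : Set (↥F → ℝ) := stdSimplex ℝ ↥F ∩
    ⋂ (v : ↥F) (w : ↥F) (_ : 2 < dist (v : Vert T) (w : Vert T)),
      {c | c v = 0} ∪ {c | c w = 0} with hA
  have hAc : IsCompact A := (isCompact_stdSimplex (𝕜 := ℝ) (ι := ↥F)).inter_right
    (isClosed_iInter fun v => isClosed_iInter fun w => isClosed_iInter fun _ =>
      (isClosed_eq (continuous_apply v) continuous_const).union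
        (isClosed_eq (continuous_apply w) continuous_const))
  rw [Subtype.isCompact_iff]
  convert hAc.image hΦc using 1
  ext q
  constructor
  · rintro ⟨p, hp, rfl⟩
    refine ⟨fun v => p.1 v, ⟨⟨fun v => p.2.1 _, ?_⟩, ?_⟩, lp.ext (funext fun v => ?_)⟩
    · have h1 := p.2.2.1
      rw [lp.norm_eq_tsum_rpow (by simp)] at h1
      simp only [ENNReal.toReal_one, Real.rpow_one, div_one, Real.norm_eq_abs] at h1
      rw [tsum_eq_sum (s := F) fun v hv => by rw [hp v hv, abs_zero], ← Finset.sum_coe_sort] at h1
      simp only [abs_of_nonneg (p.2.1 _)] at h1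
      exact h1
    · simp only [Set.mem_iInter, Set.mem_union, Set.mem_ofPred_eq]
      intro v w hvw
      by_contra hne
      push Not at hne
      exact absurd (p.2.2.2.2 _ _ hne.1 hne.2) (not_le.2 hvw)
    · rw [happ]
      split_ifs with h
      · rfl
      · exact (hp v h).symm
  · rintro ⟨c, ⟨⟨hc0, hc1⟩, hcd⟩, rfl⟩
    have hmem : Φ c ∈ Rips (Vert T) 2 := by
      refine ⟨fun v => ?_, ?_, F.finite_toSet.subset fun v hv => ?_, fun v w hv hw => ?_⟩
      · rw [happ]
        split_ifs
        · exact hc0 _
        · exact le_rfl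
      · rw [hnorm]
        simp only [abs_of_nonneg (hc0 _), hc1]
      · by_contra h
        exact hv (by rw [happ]; exact dif_neg h)
      · rw [happ] at hv hw
        by_cases h1 : v ∈ F
        · by_cases h2 : w ∈ F
          · rw [dif_pos h1] at hv
            rw [dif_pos h2] at hw
            by_contra hgt
            simp only [Set.mem_iInter, Set.mem_union, Set.mem_ofPred_eq] at hcd
            rcases hcd ⟨v, h1⟩ ⟨w, h2⟩ (not_le.1 hgt) with e | e
            · exact hv e
            · exact hw e
          · exact absurd (dif_neg h2) hw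
        · exact absurd (dif_neg h1) hv
    exact ⟨⟨Φ c, hmem⟩, fun v hv => by simp [happ, hv], rfl⟩

theorem rootMass_continuous (n : ℕ) : Continuous (rootMass T n) :=
  continuous_finsetSum _ fun z _ =>
    (continuous_coord (rootVert T ⟨n, z⟩)).comp continuous_subtype_val

/-- A function equal to one on one root torus. -/
noncomputable def bump (hg : BoundedGeometry (Vert T)) (n : ℕ) : C₀(Rips (Vert T) 2, ℂ) where
  toFun p := ((max 0 (2 * rootMass T n p - 1) : ℝ) : ℂ)
  continuous_toFun := Complex.continuous_ofReal.comp ((continuous_const (y := (0 : ℝ))).max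
    (((continuous_const (y := (2 : ℝ))).mul (rootMass_continuous T n)).sub
      (continuous_const (y := (1 : ℝ)))))
  zero_at_infty' := by
    obtain ⟨N, hN⟩ := hg 2
    have hfin : (⋃ z : Grid n, Metric.closedBall (rootVert T ⟨n, z⟩) 2).Finite :=
      Set.finite_iUnion fun z => (hN _).1
    refine Tendsto.congr' ?_ tendsto_const_nhds
    refine Filter.mem_cocompact.2 ⟨_, isCompact_supported T hfin.toFinset, fun p hp => ?_⟩
    by_contra hne
    refine hp fun v hv => ?_
    by_contra hpv
    have hmass : rootMass T n p ≠ 0 := by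
      intro h0
      refine hne ?_
      change (0 : ℂ) = ((max 0 (2 * rootMass T n p - 1) : ℝ) : ℂ)
      rw [h0]
      norm_num
    obtain ⟨z, -, hz⟩ := Finset.exists_ne_zero_of_sum_ne_zero hmass
    exact hv (hfin.mem_toFinset.2 (Set.mem_iUnion.2 ⟨z, p.2.2.2.2 _ _ hpv hz⟩))

theorem pullF_bump (hg : BoundedGeometry (Vert T)) (n : ℕ) (x : Torus) :
    pullF T n (bump T hg n) x = 1 := by
  change ((max 0 (2 * rootMass T n (rootPt T n x) - 1) : ℝ) : ℂ) = 1
  rw [rootMass_rootPt]
  norm_num

theorem rep0_nondegenerate (hg : BoundedGeometry (Vert T)) : Nondegenerate (rep0 T) := by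
  classical
  refine fun v => mem_closure_of_tendsto (lp.hasSum_single (by norm_num) v)
    (Eventually.of_forall fun s => Submodule.sum_mem _ fun n _ => subset_span ?_)
  refine ⟨bump T hg n, lp.single 2 n (v n), lp.ext (funext fun m => ?_)⟩
  rw [rep0_apply]
  by_cases h : m = n
  · subst h
    rw [lp.single_apply, Pi.single_eq_same,
      mulOp_one (pullF_bump T hg m)]
    rfl
  · rw [lp.single_apply, Pi.single_eq_of_ne h, map_zero]

theorem phaseMod_isGeometric (hg : BoundedGeometry (Vert T)) : IsGeometric (phaseMod T) :=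
  ⟨rep0_nondegenerate T hg, rep0_nondegenerate T hg, 4, phaseMod_propagation T⟩

end VP212.TorusMod
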