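import Vale.Agent.P212.TorusMod.Symbol

/-!
P212, torus module: averaged phases, which move supports only by a bounded amount.
-/

open scoped InnerProductSpace ComplexConjugate
open MeasureTheory Filter Topology Submodule AddCircle

namespace VP212.TorusMod

/-- The radius of the averaging arc. -/
noncomputable def rad (L : ℕ) : ℝ := 1 / (2 * ((L : ℝ) + 1))

theorem rad_pos (L : ℕ) : 0 < rad L := by unfold rad; positivity

/-- The averaging arc. -/
def arc (L : ℕ) : Set UnitAddCircle := Metric.closedBall 0 (rad L)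

theorem arc_measurable (L : ℕ) : MeasurableSet (arc L) := Metric.isClosed_closedBall.measurableSet

theorem arc_pos (L : ℕ) : 0 < (haarAddCircle : Measure UnitAddCircle).real (arc L) :=
  ENNReal.toReal_pos (Metric.measure_closedBall_pos _ _ (rad_pos L)).ne' (measure_ne_top _ _)

/-- The indicator of a set, as a vector. -/
noncomputable def ind {s : Set UnitAddCircle} (hs : MeasurableSet s) :
    Lp ℂ 2 (haarAddCircle : Measure UnitAddCircle) :=
  indicatorConstLp 2 hs (measure_ne_top _ _) (1 : ℂ)

/-- The Fourier coefficients of an indicator. -/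
noncomputable def coefInd (s : Set UnitAddCircle) (j : ℤ) : ℂ :=
  fourierCoeff (s.indicator fun _ => (1 : ℂ)) j

theorem repr_ind {s : Set UnitAddCircle} (hs : MeasurableSet s) (j : ℤ) :
    fourierBasis.repr (ind hs) j = coefInd s j := by
  rw [fourierBasis_repr]
  refine integral_congr_ae ?_
  filter_upwards [indicatorConstLp_coeFn (p := 2) (hs := hs)
    (μ := (haarAddCircle : Measure UnitAddCircle)) (hμs := measure_ne_top _ _) (c := (1 : ℂ))]
    with x hx
  rw [ind, hx]

theorem hasSum_ind {s t : Set UnitAddCircle} (hs : MeasurableSet s) (ht : MeasurableSet t) :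
    HasSum (fun j => conj (coefInd s j) * coefInd t j)
      ((haarAddCircle : Measure UnitAddCircle).real (s ∩ t) : ℂ) := by
  have h := fourierBasis.hasSum_inner_mul_inner (ind hs) (ind ht)
  rw [show ⟪ind hs, ind ht⟫_ℂ =
      ((haarAddCircle : Measure UnitAddCircle).real (s ∩ t) : ℂ) from by
    rw [ind, ind, L2.inner_indicatorConstLp_indicatorConstLp hs ht]
    simp] at h
  refine h.congr_fun fun j => ?_
  rw [← repr_ind hs, ← repr_ind ht, HilbertBasis.repr_apply_apply, HilbertBasis.repr_apply_apply,
    inner_conj_symm]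

theorem coefInd_shift (s : Set UnitAddCircle) (t : UnitAddCircle) (j : ℤ) :
    coefInd ((fun x => x + t) ⁻¹' s) j = fourier j t * coefInd s j := by
  simp only [coefInd, fourierCoeff, smul_eq_mul, ← integral_const_mul]
  rw [← integral_add_right_eq_self
    (fun x => fourier j t * (fourier (-j) x * s.indicator (fun _ => (1 : ℂ)) x)) t]
  refine integral_congr_ae (Eventually.of_forall fun x => ?_)
  have h : fourier j t * fourier (-j) (x + t) = fourier (-j) x := by
    simp only [fourier_apply, smul_add, AddCircle.toCircle_add, Circle.coe_mul, neg_smul,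
      AddCircle.toCircle_neg]
    rw [← mul_assoc, mul_comm (↑(j • t).toCircle : ℂ), mul_assoc, ← Circle.coe_mul,
      mul_inv_cancel, Circle.coe_one, mul_one]
  simp only [← mul_assoc, h]
  congr 1

/-- The averaging weights on frequencies of the circle. -/
noncomputable def weight (L : ℕ) (j : ℤ) : ℝ :=
  ‖coefInd (arc L) j‖ ^ 2 / (haarAddCircle : Measure UnitAddCircle).real (arc L)

theorem weight_nonneg (L : ℕ) (j : ℤ) : 0 ≤ weight L j := by unfold weight; positivity

theorem hasSum_weight_fourier (L : ℕ) (t : UnitAddCircle) :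
    HasSum (fun j => (weight L j : ℂ) * fourier (-j) t)
      (((haarAddCircle : Measure UnitAddCircle).real ((fun x => x + t) ⁻¹' arc L ∩ arc L) /
        (haarAddCircle : Measure UnitAddCircle).real (arc L) : ℝ) : ℂ) := by
  have h := (hasSum_ind ((measurable_add_const t) (arc_measurable L)) (arc_measurable L)).div_const
    (((haarAddCircle : Measure UnitAddCircle).real (arc L) : ℝ) : ℂ)
  rw [Complex.ofReal_div]
  refine h.congr_fun fun j => ?_
  rw [coefInd_shift, map_mul, ← fourier_neg, weight, Complex.ofReal_div, Complex.ofReal_pow]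
  rw [mul_assoc, Complex.conj_mul']
  ring

theorem hasSum_weight (L : ℕ) : HasSum (weight L) 1 := by
  have h := hasSum_weight_fourier L 0
  have h0 : (fun x => x + (0 : UnitAddCircle)) ⁻¹' arc L ∩ arc L = arc L := by simp
  rw [h0, div_self (arc_pos L).ne'] at h
  refine Complex.hasSum_ofReal.1 (h.congr_fun fun j => ?_)
  simp

theorem weight_fourier_zero (L : ℕ) {t : UnitAddCircle} (ht : 2 * rad L < ‖t‖) :
    HasSum (fun j => (weight L j : ℂ) * fourier (-j) t) 0 := by
  have h := hasSum_weight_fourier L t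
  have h0 : (fun x => x + t) ⁻¹' arc L ∩ arc L = ∅ := by
    refine Set.eq_empty_iff_forall_notMem.2 fun x hx => ?_
    obtain ⟨h1, h2⟩ := hx
    simp only [arc, Set.mem_preimage, Metric.mem_closedBall, dist_zero_right] at h1 h2
    have := norm_sub_le (x + t) x
    rw [add_sub_cancel_left] at this
    linarith
  rw [h0] at h
  simpa using h

/-- The averaging weights on frequencies of the torus. -/
noncomputable def weight2 (L : ℕ) (k : ℤ × ℤ) : ℝ := weight L k.1 * weight L k.2

theorem weight2_nonneg (L : ℕ) (k : ℤ × ℤ) : 0 ≤ weight2 L k :=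
  mul_nonneg (weight_nonneg L _) (weight_nonneg L _)

theorem hasSum_weight2 (L : ℕ) : HasSum (weight2 L) 1 := by
  simpa only [mul_one] using! (hasSum_weight L).mul (hasSum_weight L)
    ((hasSum_weight L).summable.mul_of_nonneg (hasSum_weight L).summable (weight_nonneg L)
      (weight_nonneg L))

/-- Two torus points are separated more than the averaging width. -/
def Sep (L : ℕ) (x y : Torus) : Prop := 2 * rad L < ‖x.1 - y.1‖ ∨ 2 * rad L < ‖x.2 - y.2‖

theorem fourier_sub (j : ℤ) (s t : UnitAddCircle) :
    fourier j (s - t) = fourier j s * fourier (-j) t := by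
  simp only [fourier_apply, sub_eq_add_neg, smul_add, smul_neg, neg_smul]
  rw [AddCircle.toCircle_add, Circle.coe_mul]

theorem weight2_chr_zero (L : ℕ) {x y : Torus} (h : Sep L x y) :
    ∑' k, (weight2 L k : ℂ) * (chr (-k) x * chr k y) = 0 := by
  have hsum : ∀ t : UnitAddCircle, Summable fun j => ‖(weight L j : ℂ) * fourier (-j) t‖ := fun t => by
    refine (hasSum_weight L).summable.congr fun j => ?_
    rw [norm_mul, Complex.norm_real, fourier_apply, Circle.norm_coe, mul_one, Real.norm_eq_abs,
      abs_of_nonneg (weight_nonneg L j)]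
  have hprod := tsum_mul_tsum_of_summable_norm (hsum (x.1 - y.1)) (hsum (x.2 - y.2))
  have hterm : ∀ k : ℤ × ℤ, (weight2 L k : ℂ) * (chr (-k) x * chr k y) =
      (weight L k.1 : ℂ) * fourier (-k.1) (x.1 - y.1) *
        ((weight L k.2 : ℂ) * fourier (-k.2) (x.2 - y.2)) := fun k => by
    rw [fourier_sub, fourier_sub, neg_neg, neg_neg, chr_apply, chr_apply, weight2]
    simp only [Prod.fst_neg, Prod.snd_neg, Complex.ofReal_mul]
    ring
  rw [tsum_congr hterm, ← hprod]
  rcases h with h | h
  · rw [(weight_fourier_zero L h).tsum_eq, zero_mul]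
  · rw [(weight_fourier_zero L h).tsum_eq, mul_zero]

/-- The averaged phase. -/
noncomputable def sym (L : ℕ) (k : ℤ × ℤ) : ℂ := ∑' η, (weight2 L η : ℂ) * phase (k + η)

theorem sym_term_le (L : ℕ) (k η : ℤ × ℤ) :
    ‖(weight2 L η : ℂ) * phase (k + η)‖ ≤ weight2 L η := by
  rw [norm_mul, Complex.norm_real, Real.norm_eq_abs, abs_of_nonneg (weight2_nonneg L η)]
  exact mul_le_of_le_one_right (weight2_nonneg L η) (phase_norm_le _)

theorem sym_norm_le (L : ℕ) (k : ℤ × ℤ) : ‖sym L k‖ ≤ 1 :=
  tsum_of_norm_bounded (hasSum_weight2 L) (sym_term_le L k)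

theorem phaseLike_sym (L : ℕ) : PhaseLike (sym L) := by
  refine ⟨sym_norm_le L, ?_⟩
  change Tendsto (fun k => sym L k - phase k) cofinite (𝓝 0)
  have hb : Summable fun η => 2 * weight2 L η := (hasSum_weight2 L).summable.mul_left 2
  have h := tendsto_tsum_of_dominated_convergence (𝓕 := cofinite)
    (f := fun k η => (weight2 L η : ℂ) * (phase (k + η) - phase k)) (g := fun _ => (0 : ℂ)) hb
    (fun η => by simpa using (shiftInv_phase η).const_mul (weight2 L η : ℂ))
    (Eventually.of_forall fun k η => by
      rw [norm_mul, Complex.norm_real, Real.norm_eq_abs, abs_of_nonneg (weight2_nonneg L η),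
        mul_comm 2]
      refine mul_le_mul_of_nonneg_left ?_ (weight2_nonneg L η)
      have := norm_sub_le (phase (k + η)) (phase k)
      linarith [phase_norm_le (k + η), phase_norm_le k])
  rw [tsum_zero] at h
  refine h.congr fun k => ?_
  have h1 : Summable fun η => (weight2 L η : ℂ) * phase (k + η) :=
    (hasSum_weight2 L).summable.of_norm_bounded (sym_term_le L k)
  have h2 : HasSum (fun η => (weight2 L η : ℂ)) ((1 : ℝ) : ℂ) :=
    Complex.hasSum_ofReal.2 (hasSum_weight2 L)
  simp only [mul_sub]
  rw [h1.tsum_sub (h2.summable.mul_right _), tsum_mul_right, h2.tsum_eq]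
  simp [sym]

/-! ### Propagation -/

theorem inner_chrLp_left (k : ℤ × ℤ) (V : TorusL2) :
    ⟪chrLp k, V⟫_ℂ = ∫ y, chr (-k) y * V y := by
  rw [L2.inner_def]
  refine integral_congr_ae ?_
  filter_upwards [chrLp_coe k] with y hy
  rw [hy, RCLike.inner_apply, chr_neg, mul_comm]

theorem inner_chrLp_right (k : ℤ × ℤ) (U : TorusL2) :
    ⟪U, chrLp k⟫_ℂ = ∫ x, chr k x * conj (U x) := by
  rw [L2.inner_def]
  refine integral_congr_ae ?_
  filter_upwards [chrLp_coe k] with x hx
  rw [hx, RCLike.inner_apply]

theorem convolve_zero (L : ℕ) (U V : TorusL2)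
    (hsep : ∀ᵐ p : Torus × Torus ∂(volume.prod volume), U p.1 * V p.2 ≠ 0 → Sep L p.1 p.2)
    (j : ℤ × ℤ) :
    ∑' η, (weight2 L η : ℂ) * (⟪U, chrLp (j - η)⟫_ℂ * ⟪chrLp (j - η), V⟫_ℂ) = 0 := by
  set G : Torus × Torus → ℂ := fun p => conj (U p.1) * V p.2 with hG
  have hGi : Integrable G (volume.prod volume) :=
    (Complex.conjCLE.toContinuousLinearMap.integrable_comp
      ((Lp.memLp U).integrable one_le_two)).mul_prod ((Lp.memLp V).integrable one_le_two)
  set F : ℤ × ℤ → Torus × Torus → ℂ := fun η p =>
    ((weight2 L η : ℂ) * (chr (j - η) p.1 * chr (-(j - η)) p.2)) * G p with hF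
  have hFi : ∀ η, Integrable (F η) (volume.prod volume) := fun η => by
    refine hGi.bdd_mul (c := weight2 L η) (by fun_prop) (Eventually.of_forall fun p => ?_)
    rw [norm_mul, norm_mul, Complex.norm_real, Real.norm_eq_abs,
      abs_of_nonneg (weight2_nonneg L η), chr_norm_apply, chr_norm_apply, mul_one, mul_one]
  have hFn : Summable fun η => ∫ p, ‖F η p‖ ∂(volume.prod volume) := by
    refine ((hasSum_weight2 L).summable.mul_right (∫ p, ‖G p‖ ∂(volume.prod volume))).congr
      fun η => ?_
    rw [← integral_const_mul]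
    refine integral_congr_ae (Eventually.of_forall fun p => ?_)
    simp only [hF, norm_mul, Complex.norm_real, Real.norm_eq_abs,
      abs_of_nonneg (weight2_nonneg L η), chr_norm_apply, mul_one]
  have hterm : ∀ η, (weight2 L η : ℂ) * (⟪U, chrLp (j - η)⟫_ℂ * ⟪chrLp (j - η), V⟫_ℂ) =
      ∫ p, F η p ∂(volume.prod volume) := fun η => by
    rw [inner_chrLp_left, inner_chrLp_right, ← integral_prod_mul, ← integral_const_mul]
    refine integral_congr_ae (Eventually.of_forall fun p => ?_)
    simp only [hF, hG]
    ring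
  rw [tsum_congr hterm, integral_tsum_of_summable_integral_norm hFi hFn]
  refine integral_eq_zero_of_ae ?_
  filter_upwards [hsep] with p hp
  by_cases h0 : U p.1 * V p.2 = 0
  · have : G p = 0 := by
      rcases mul_eq_zero.1 h0 with h | h <;> simp [hG, h]
    simp [hF, this]
  · have hz : ∀ η, F η p = (chr j p.1 * chr (-j) p.2 * G p) *
        ((weight2 L η : ℂ) * (chr (-η) p.1 * chr η p.2)) := fun η => by
      simp only [hF]
      rw [sub_eq_add_neg, chr_add, neg_add, neg_neg, chr_add]
      ring
    rw [Pi.zero_apply, tsum_congr hz, tsum_mul_left, weight2_chr_zero L (hp h0), mul_zero]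

theorem inner_sym_zero (L : ℕ) (U V : TorusL2)
    (hsep : ∀ᵐ p : Torus × Torus ∂(volume.prod volume), U p.1 * V p.2 ≠ 0 → Sep L p.1 p.2) :
    ⟪U, diagOp (sym L) V⟫_ℂ = 0 := by
  set c : ℤ × ℤ → ℂ := fun k => ⟪U, chrLp k⟫_ℂ * ⟪chrLp k, V⟫_ℂ with hc
  have hcs : Summable fun k => ‖c k‖ := by
    refine (basis.summable_inner_mul_inner U V).norm.congr fun k => ?_
    simp only [hc, basis_coe]
  set G : (ℤ × ℤ) × (ℤ × ℤ) → ℂ := fun p => (weight2 L p.2 : ℂ) * phase (p.1 + p.2) * c p.1
    with hGdef
  have hGs : Summable G := by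
    refine (hcs.mul_of_nonneg (hasSum_weight2 L).summable (fun _ => norm_nonneg _)
      (weight2_nonneg L)).of_norm_bounded fun p => ?_
    rw [hGdef, norm_mul, mul_comm ‖c p.1‖]
    exact mul_le_mul_of_nonneg_right (sym_term_le L p.1 p.2) (norm_nonneg _)
  let e : (ℤ × ℤ) × (ℤ × ℤ) ≃ (ℤ × ℤ) × (ℤ × ℤ) :=
    { toFun := fun p => (p.1 - p.2, p.2)
      invFun := fun p => (p.1 + p.2, p.2)
      left_inv := fun p => by simp
      right_inv := fun p => by simp }
  have hGe : Summable (G ∘ e) := e.summable_iff.2 hGs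
  calc ⟪U, diagOp (sym L) V⟫_ℂ = ∑' k, sym L k * c k := by
        rw [← basis.tsum_inner_mul_inner U (diagOp (sym L) V)]
        refine tsum_congr fun k => ?_
        rw [← HilbertBasis.repr_apply_apply, diagOp_repr (phaseLike_sym L).bs,
          HilbertBasis.repr_apply_apply, basis_coe, hc]
        ring
    _ = ∑' p, G p := by
        rw [hGs.tsum_prod]
        refine tsum_congr fun k => ?_
        rw [sym, ← tsum_mul_right]
    _ = ∑' p, (G ∘ e) p := (e.tsum_eq G).symm
    _ = 0 := by
        rw [hGe.tsum_prod]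
        refine (tsum_congr fun j => ?_).trans tsum_zero
        rw [← mul_zero (phase j), ← convolve_zero L U V hsep j, ← tsum_mul_left]
        refine tsum_congr fun η => ?_
        simp only [Function.comp_apply, e, Equiv.coe_fn_mk, hGdef, hc, sub_add_cancel]
        ring

/-- Multiplications separated by more than the width annihilate the averaged phase. -/
theorem sym_propagation (L : ℕ) {u v : Torus → ℂ} (hu : BM u) (hv : BM v)
    (h : ∀ x y, u x ≠ 0 → v y ≠ 0 → Sep L x y) :
    mulOp u * diagOp (sym L) * mulOp v = 0 := by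
  refine ContinuousLinearMap.ext fun g => ext_inner_left ℂ fun f => ?_
  rw [zero_apply, inner_zero_right, mul_apply_eq_comp, mul_apply_eq_comp,
    ← ContinuousLinearMap.adjoint_inner_left, ← ContinuousLinearMap.star_eq_adjoint,
    mulOp_star hu]
  refine inner_sym_zero L _ _ ?_
  have hu' : BM fun x => conj (u x) :=
    ⟨RCLike.continuous_conj.measurable.comp hu.1, hu.2.choose, fun x => by
      simpa using hu.2.choose_spec x⟩
  filter_upwards [Measure.quasiMeasurePreserving_fst.ae (mulOp_coe hu' f),
    Measure.quasiMeasurePreserving_snd.ae (mulOp_coe hv g)] with p h1 h2 h0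
  rw [h1, h2] at h0
  refine h _ _ (fun he => h0 ?_) fun he => h0 ?_
  · simp [he]
  · simp [he]

end VP212.TorusMod
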