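import Vale.Agent.P212.TorusMod.Hat

/-!
P212, torus module: the maps of the tori onto the roots of the Rips complex.
-/

open scoped ZeroAtInfty
open MeasureTheory Filter Topology

namespace VP212.TorusMod

/-- Grid points at most `K` steps apart in both directions. -/
def Near {n : ℕ} (K : ℕ) (z w : Grid n) : Prop :=
  ∃ p q : ℤ, |p| ≤ K ∧ |q| ≤ K ∧ w = (z.1 + p, z.2 + q)

theorem Near.symm {n K : ℕ} {z w : Grid n} (h : Near K z w) : Near K w z := by
  obtain ⟨p, q, hp, hq, rfl⟩ := h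
  exact ⟨-p, -q, by rwa [abs_neg], by rwa [abs_neg], by simp⟩

theorem Near.trans {n K K' : ℕ} {z w u : Grid n} (h : Near K z w) (h' : Near K' w u) :
    Near (K + K') z u := by
  obtain ⟨p, q, hp, hq, rfl⟩ := h
  obtain ⟨p', q', hp', hq', rfl⟩ := h'
  refine ⟨p + p', q + q', (abs_add_le _ _).trans ?_, (abs_add_le _ _).trans ?_, ?_⟩
  · push_cast; omega
  · push_cast; omega
  · simp [add_assoc]

theorem Near.mono {n K K' : ℕ} (h : K ≤ K') {z w : Grid n} : Near K z w → Near K' z w := by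
  rintro ⟨p, q, hp, hq, rfl⟩
  exact ⟨p, q, hp.trans (by exact_mod_cast h), hq.trans (by exact_mod_cast h), rfl⟩

theorem dist_cast_le {V : Type} [MetricSpace V] {n : ℕ} (F : ZMod n → V)
    (h : ∀ a, dist (F a) (F (a + 1)) ≤ 1) (a : ZMod n) (p : ℤ) :
    dist (F a) (F (a + p)) ≤ |(p : ℝ)| := by
  have hnat : ∀ (m : ℕ) (b : ZMod n), dist (F b) (F (b + m)) ≤ (m : ℝ) := by
    intro m b
    induction m with
    | zero => simp
    | succ m ih =>
      push_cast
      rw [← add_assoc]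
      exact (dist_triangle _ (F (b + m)) _).trans (add_le_add ih (h _))
  obtain ⟨m, rfl | rfl⟩ := Int.eq_nat_or_neg p
  · simpa using hnat m a
  · have := hnat m (a + ((-m : ℤ) : ZMod n))
    rw [dist_comm]
    simpa using this

theorem dist_le_of_near {V : Type} [MetricSpace V] {n K : ℕ} (F : Grid n → V)
    (h1 : ∀ z : Grid n, dist (F z) (F (z.1 + 1, z.2)) ≤ 1)
    (h2 : ∀ z : Grid n, dist (F z) (F (z.1, z.2 + 1)) ≤ 1) {z w : Grid n} (h : Near K z w) :
    dist (F z) (F w) ≤ 2 * (K : ℝ) := by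
  obtain ⟨p, q, hp, hq, rfl⟩ := h
  have hp' : |(p : ℝ)| ≤ K := by exact_mod_cast hp
  have hq' : |(q : ℝ)| ≤ K := by exact_mod_cast hq
  have a := dist_cast_le (fun a => F (a, z.2)) (fun a => h1 (a, z.2)) z.1 p
  have b := dist_cast_le (fun b => F (z.1 + p, b)) (fun b => h2 (_, b)) z.2 q
  have := dist_triangle (F z) (F (z.1 + p, z.2)) (F (z.1 + p, z.2 + q))
  simp only [Prod.mk.eta] at a
  linarith

theorem joinDist_le_one {V : Type} {r : V → V → Prop} {c : V → ℕ} {o : ℕ → V} {x y : V}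
    (hc : c x = c y) (h : r x y) : joinDist (SimpleGraph.fromRel r) c o x y ≤ 1 := by
  rw [joinDist, if_pos hc]
  by_cases hxy : x = y
  · simp [hxy]
  · exact_mod_cast SimpleGraph.dist_le
      (SimpleGraph.Adj.toWalk ((SimpleGraph.fromRel_adj _ _ _).2 ⟨hxy, Or.inl h⟩))

variable (T : Tower)

theorem rootVert_near {n K : ℕ} {z w : Grid n} (h : Near K z w) :
    dist (rootVert T ⟨n, z⟩) (rootVert T ⟨n, w⟩) ≤ 2 * (K : ℝ) := by
  refine dist_le_of_near (fun z : Grid n => rootVert T ⟨n, z⟩) (fun z => ?_) (fun z => ?_) h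
  · refine joinDist_le_one (r := edgeRel) rfl (Or.inr (Or.inl ?_))
    simp only [stepA, rootVert]
    congr 1
    exact (T.root n).elim _ _
  · refine joinDist_le_one (r := edgeRel) rfl (Or.inr (Or.inr (Or.inl ?_)))
    simp only [stepB, rootVert]
    congr 1
    exact (T.root n).elim _ _

theorem rootBase_near {n K : ℕ} {z w : Grid n} (h : Near K z w) :
    dist (rootBase ⟨n, z⟩) (rootBase ⟨n, w⟩) ≤ 2 * (K : ℝ) :=
  dist_le_of_near (fun z : Grid n => rootBase ⟨n, z⟩)
    (fun _ => joinDist_le_one (r := baseRel) rfl (Or.inl rfl))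
    (fun _ => joinDist_le_one (r := baseRel) rfl (Or.inr (Or.inl rfl))) h

theorem rootVert_injective : Function.Injective (rootVert T) := by
  rintro ⟨n, z⟩ ⟨m, w⟩ h
  simp only [rootVert, Vert.mk.injEq] at h
  obtain ⟨rfl, h, -⟩ := h
  rw [heq_eq_eq] at h
  rw [h]

theorem rootBase_injective : Function.Injective rootBase := by
  rintro ⟨n, z⟩ ⟨m, w⟩ h
  simp only [rootBase, Base.mk.injEq] at h
  obtain ⟨rfl, h, -⟩ := h
  rw [heq_eq_eq] at h
  rw [h]

/-- The cell coordinates of a torus point. -/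
noncomputable def gIdx (n : ℕ) (x : Torus) : Grid n := (idx (n + 3) x.1, idx (n + 3) x.2)

/-- The cell of a grid point. -/
def cell (n : ℕ) (z : Grid n) : Set Torus := {x | gIdx n x = z}

theorem measurableSet_cell (n : ℕ) (z : Grid n) : MeasurableSet (cell n z) := by
  have : cell n z = {t | idx (n + 3) t = z.1} ×ˢ {t | idx (n + 3) t = z.2} := by
    ext x
    simp [cell, gIdx, Prod.ext_iff]
  rw [this]
  exact (measurableSet_idx (n + 3) z.1).prod (measurableSet_idx (n + 3) z.2)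

theorem gridCoord_idx_pos (n : ℕ) (x : Torus) : 0 < gridCoord n x (gIdx n x) :=
  mul_pos (hat_idx_pos (n + 3) (by omega) x.1) (hat_idx_pos (n + 3) (by omega) x.2)

theorem gridCoord_nonneg (n : ℕ) (x : Torus) (z : Grid n) : 0 ≤ gridCoord n x z :=
  mul_nonneg (le_max_left _ _) (le_max_left _ _)

theorem gridCoord_sum (n : ℕ) (x : Torus) : ∑ z, gridCoord n x z = 1 := by
  simp only [gridCoord, Fintype.sum_prod_type, ← Finset.mul_sum,
    hat_sum (n + 3) (by omega), mul_one]

theorem hat_support_shift {L : ℕ} [NeZero L] {t : UnitAddCircle} {a : ZMod L}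
    (h : hat L t a ≠ 0) : ∃ p : ℤ, (p = 0 ∨ p = 1) ∧ a = idx L t + p := by
  rcases hat_support L h with rfl | rfl
  · exact ⟨0, Or.inl rfl, by simp⟩
  · exact ⟨1, Or.inr rfl, by simp⟩

theorem gridCoord_support {n : ℕ} {x : Torus} {z : Grid n} (h : gridCoord n x z ≠ 0) :
    ∃ p q : ℤ, (p = 0 ∨ p = 1) ∧ (q = 0 ∨ q = 1) ∧
      z = ((gIdx n x).1 + p, (gIdx n x).2 + q) := by
  obtain ⟨h1, h2⟩ := mul_ne_zero_iff.1 h
  obtain ⟨p, hp, hpe⟩ := hat_support_shift h1
  obtain ⟨q, hq, hqe⟩ := hat_support_shift h2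
  exact ⟨p, q, hp, hq, Prod.ext hpe hqe⟩

theorem gridCoord_diam {n : ℕ} {x : Torus} {z w : Grid n} (hz : gridCoord n x z ≠ 0)
    (hw : gridCoord n x w ≠ 0) : Near 1 z w := by
  obtain ⟨p, q, hp, hq, rfl⟩ := gridCoord_support hz
  obtain ⟨p', q', hp', hq', rfl⟩ := gridCoord_support hw
  refine ⟨p' - p, q' - q, ?_, ?_, by simp⟩
  · rcases hp with rfl | rfl <;> rcases hp' with rfl | rfl <;> norm_num
  · rcases hq with rfl | rfl <;> rcases hq' with rfl | rfl <;> norm_num

/-- Close torus points lie in close cells. -/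
theorem gIdx_near {n : ℕ} {x y : Torus} (h1 : ‖x.1 - y.1‖ ≤ 1 / ((n + 3 : ℕ) : ℝ))
    (h2 : ‖x.2 - y.2‖ ≤ 1 / ((n + 3 : ℕ) : ℝ)) : Near 2 (gIdx n x) (gIdx n y) := by
  obtain ⟨p, hp, hpe⟩ := idx_near (n + 3) h1
  obtain ⟨q, hq, hqe⟩ := idx_near (n + 3) h2
  exact ⟨p, q, hp, hq, Prod.ext hpe hqe⟩

theorem sep_of_not_near {n : ℕ} {x y : Torus} (h : ¬ Near 2 (gIdx n x) (gIdx n y)) :
    Sep (n + 3) x y := by
  have hle : 2 * rad (n + 3) ≤ 1 / ((n + 3 : ℕ) : ℝ) := by
    have e : 2 * rad (n + 3) = 1 / (((n + 3 : ℕ) : ℝ) + 1) := by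
      rw [rad]; field_simp
    rw [e]
    exact one_div_le_one_div_of_le (by positivity) (by linarith)
  by_contra hc
  simp only [Sep, not_or, not_lt] at hc
  exact h (gIdx_near (hc.1.trans hle) (hc.2.trans hle))

/-- The coordinates of the root point of a torus point. -/
noncomputable def rootVec (n : ℕ) (x : Torus) : lp (fun _ : Vert T => ℝ) 1 := by
  classical exact ∑ z, lp.single 1 (rootVert T ⟨n, z⟩) (gridCoord n x z)

theorem rootVec_apply (n : ℕ) (x : Torus) (z : Grid n) :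
    rootVec T n x (rootVert T ⟨n, z⟩) = gridCoord n x z := by
  classical
  rw [rootVec, lp.coeFn_sum, Finset.sum_apply, Finset.sum_eq_single z]
  · simp
  · intro w _ hw
    rw [lp.single_apply, Pi.single_eq_of_ne fun h => hw ?_]
    simpa using (rootVert_injective T h).symm
  · simp

theorem rootVec_off (n : ℕ) (x : Torus) (v : Vert T)
    (hv : v ∉ Set.range fun z : Grid n => rootVert T ⟨n, z⟩) : rootVec T n x v = 0 := by
  classical
  rw [rootVec, lp.coeFn_sum, Finset.sum_apply]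
  exact Finset.sum_eq_zero fun z _ => by
    rw [lp.single_apply, Pi.single_eq_of_ne fun h => hv ⟨z, h.symm⟩]

theorem rootVec_support {n : ℕ} {x : Torus} {v : Vert T} (h : rootVec T n x v ≠ 0) :
    ∃ z : Grid n, v = rootVert T ⟨n, z⟩ ∧ gridCoord n x z ≠ 0 := by
  by_cases hv : v ∈ Set.range fun z : Grid n => rootVert T ⟨n, z⟩
  · obtain ⟨z, rfl⟩ := hv
    rw [rootVec_apply] at h
    exact ⟨z, rfl, h⟩
  · exact absurd (rootVec_off T n x v hv) h

theorem rootVec_mem (n : ℕ) (x : Torus) : rootVec T n x ∈ Rips (Vert T) 2 := by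
  classical
  refine ⟨fun v => ?_, ?_, ?_, fun v w hv hw => ?_⟩
  · by_cases hv : v ∈ Set.range fun z : Grid n => rootVert T ⟨n, z⟩
    · obtain ⟨z, rfl⟩ := hv
      rw [rootVec_apply]
      exact gridCoord_nonneg n x z
    · rw [rootVec_off T n x v hv]
  · rw [lp.norm_eq_tsum_rpow (by simp)]
    simp only [ENNReal.toReal_one, Real.rpow_one, div_one, Real.norm_eq_abs]
    rw [tsum_eq_sum (s := Finset.univ.image fun z : Grid n => rootVert T ⟨n, z⟩) fun v hv => by
        rw [rootVec_off T n x v (by simpa using hv), abs_zero],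
      Finset.sum_image fun a _ b _ h => by simpa using rootVert_injective T h]
    simp only [rootVec_apply, abs_of_nonneg (gridCoord_nonneg n x _), gridCoord_sum]
  · refine (Set.finite_range fun z : Grid n => rootVert T ⟨n, z⟩).subset fun v hv => ?_
    by_contra h
    exact hv (rootVec_off T n x v h)
  · obtain ⟨z, rfl, hz⟩ := rootVec_support T hv
    obtain ⟨u, rfl, hu⟩ := rootVec_support T hw
    have := rootVert_near T (gridCoord_diam hz hu)
    norm_num at this
    exact this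

/-- The root point of a torus point. -/
noncomputable def rootPt (n : ℕ) (x : Torus) : Rips (Vert T) 2 :=
  ⟨rootVec T n x, rootVec_mem T n x⟩

theorem rootPt_isRootPoint (n : ℕ) (x : Torus) : IsRootPoint T n x (rootPt T n x) :=
  ⟨rootVec_apply T n x, rootVec_off T n x⟩

theorem rootPt_continuous (n : ℕ) : Continuous (rootPt T n) := by
  classical
  refine Continuous.subtype_mk ?_ _
  refine continuous_finsetSum _ fun z _ => ?_
  exact (lp.singleContinuousLinearMap ℝ (fun _ : Vert T => ℝ) 1 (rootVert T ⟨n, z⟩)).continuous.comp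
    (by unfold gridCoord hat; fun_prop)

end VP212.TorusMod
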