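import Vale.Agent.P212.TorusMod.L2

/-!
P212, torus module: symbols of phases, their shifts, and commutators with functions.
-/

open scoped InnerProductSpace ComplexConjugate
open MeasureTheory Filter Topology Submodule

namespace VP212.TorusMod

/-- The frequency as a complex number. -/
noncomputable def freq (k : ℤ × ℤ) : ℂ := (k.1 : ℂ) + k.2 * Complex.I

/-- The exact phase. -/
noncomputable def phase (k : ℤ × ℤ) : ℂ := freq k / (‖freq k‖ : ℂ)

theorem freq_add (k l : ℤ × ℤ) : freq (k + l) = freq k + freq l := by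
  simp only [freq, Prod.fst_add, Prod.snd_add, Int.cast_add]
  ring

theorem phase_norm_le (k : ℤ × ℤ) : ‖phase k‖ ≤ 1 := by
  rw [phase, norm_div, Complex.norm_real, norm_norm]
  exact div_self_le_one _

theorem tendsto_freq : Tendsto (fun k => ‖freq k‖) cofinite atTop := by
  refine tendsto_atTop.2 fun C => eventually_cofinite.2 ?_
  refine ((Set.finite_Icc (-⌈|C|⌉) ⌈|C|⌉).prod (Set.finite_Icc (-⌈|C|⌉) ⌈|C|⌉)).subset ?_
  intro k hk
  have hC : ‖freq k‖ ≤ (⌈|C|⌉ : ℤ) :=
    (not_le.1 hk).le.trans ((le_abs_self C).trans (Int.le_ceil _))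
  have h1 : |(k.1 : ℝ)| ≤ ‖freq k‖ := by
    simpa [freq] using Complex.abs_re_le_norm (freq k)
  have h2 : |(k.2 : ℝ)| ≤ ‖freq k‖ := by
    simpa [freq] using Complex.abs_im_le_norm (freq k)
  exact ⟨abs_le.1 (by exact_mod_cast h1.trans hC), abs_le.1 (by exact_mod_cast h2.trans hC)⟩

theorem phase_norm_eventually : ∀ᶠ k in cofinite, ‖phase k‖ = 1 := by
  filter_upwards [tendsto_freq.eventually_gt_atTop 0] with k hk
  rw [phase, norm_div, Complex.norm_real, norm_norm, div_self hk.ne']

/-- A symbol with vanishing differences at infinity. -/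
def ShiftInv (m : ℤ × ℤ → ℂ) : Prop :=
  ∀ l, Tendsto (fun k => m (k + l) - m k) cofinite (𝓝 0)

theorem shiftInv_phase : ShiftInv phase := by
  intro l
  refine squeeze_zero_norm' ?_
    (tendsto_freq.const_div_atTop (2 * ‖freq l‖))
  filter_upwards [tendsto_freq.eventually_gt_atTop ‖freq l‖] with k hk
  set a := freq (k + l) with ha
  set b := freq k with hb
  have hab : a - b = freq l := by rw [ha, hb, freq_add]; ring
  have hb0 : 0 < ‖b‖ := (norm_nonneg _).trans_lt hk
  have ha0 : 0 < ‖a‖ := by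
    have := norm_sub_norm_le b a
    rw [norm_sub_rev, hab] at this
    linarith
  have hA : (‖a‖ : ℂ) ≠ 0 := by exact_mod_cast ha0.ne'
  have hB : (‖b‖ : ℂ) ≠ 0 := by exact_mod_cast hb0.ne'
  have key : phase (k + l) - phase k =
      (a - b) / (‖b‖ : ℂ) + a / (‖a‖ : ℂ) * (((‖b‖ : ℂ) - (‖a‖ : ℂ)) / (‖b‖ : ℂ)) := by
    rw [phase, phase, ← ha, ← hb]
    field_simp
    ring
  rw [key]
  refine (norm_add_le _ _).trans ?_
  rw [hab, norm_mul, norm_div, norm_div, norm_div, Complex.norm_real, Complex.norm_real,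
    norm_norm, norm_norm, div_self ha0.ne', one_mul, ← add_div, ← Complex.ofReal_sub,
    Complex.norm_real, Real.norm_eq_abs]
  refine div_le_div_of_nonneg_right ?_ hb0.le
  have := abs_norm_sub_norm_le b a
  rw [norm_sub_rev, hab] at this
  linarith

theorem _root_.VP212.PhaseLike.bs {m : ℤ × ℤ → ℂ} (h : PhaseLike m) : BS m := ⟨1, h.1⟩

theorem _root_.VP212.PhaseLike.shiftInv {m : ℤ × ℤ → ℂ} (h : PhaseLike m) : ShiftInv m := by
  intro l
  have hinj : Function.Injective fun k : ℤ × ℤ => k + l := add_left_injective l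
  have := ((h.2.comp hinj.tendsto_cofinite).sub h.2).add (shiftInv_phase l)
  rw [sub_zero, add_zero] at this
  refine this.congr fun k => ?_
  simp only [Function.comp_apply, phase, freq]
  ring

theorem ShiftInv.conj {m : ℤ × ℤ → ℂ} (h : ShiftInv m) : ShiftInv fun k => conj (m k) := fun l => by
  have := (RCLike.continuous_conj.tendsto (0 : ℂ)).comp (h l)
  rw [map_zero] at this
  exact this.congr fun k => map_sub _ _ _

/-- The defect of a symbol from being unimodular. -/
noncomputable def defect (m : ℤ × ℤ → ℂ) : ℤ × ℤ → ℂ := 1 - (fun k => conj (m k)) * m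

theorem BS.defect {m : ℤ × ℤ → ℂ} (h : BS m) : BS (defect m) := BS.one.sub (h.conj.mul h)

theorem _root_.VP212.PhaseLike.defect_tendsto {m : ℤ × ℤ → ℂ} (h : PhaseLike m) :
    Tendsto (defect m) cofinite (𝓝 0) := by
  have h0 := (tendsto_zero_iff_norm_tendsto_zero.1 h.2).const_mul 2
  rw [mul_zero] at h0
  refine squeeze_zero_norm' ?_ h0
  filter_upwards [phase_norm_eventually] with k hk
  have h1 : defect m k = ((1 - ‖m k‖ ^ 2 : ℝ) : ℂ) := by
    simp only [defect, Pi.sub_apply, Pi.one_apply, Pi.mul_apply, RCLike.conj_mul]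
    push_cast
    rfl
  rw [h1, Complex.norm_real, Real.norm_eq_abs]
  have hm := h.1 k
  have hn := norm_nonneg (m k)
  have : 1 - ‖m k‖ ≤ ‖m k - phase k‖ := by
    have := norm_sub_norm_le (phase k) (m k)
    rw [hk, norm_sub_rev] at this
    exact this
  rw [abs_of_nonneg (by nlinarith)]
  change _ ≤ 2 * ‖m k - phase k‖
  nlinarith

/-! ### Commutators -/

theorem mulOp_chr_basis (l k : ℤ × ℤ) : mulOp (chr l) (chrLp k) = chrLp (k + l) := by
  refine Lp.ext ?_
  filter_upwards [mulOp_coe (BM_chr l) (chrLp k), chrLp_coe k, chrLp_coe (k + l)] with x h1 h2 h3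
  rw [h1, h2, h3, chr_add, mul_comm]

theorem basis_ext {A B : TorusL2 →L[ℂ] TorusL2} (h : ∀ k, A (chrLp k) = B (chrLp k)) : A = B := by
  refine ContinuousLinearMap.ext_on (s := Set.range basis) ?_ ?_
  · rw [dense_iff_topologicalClosure_eq_top]
    exact basis.dense_span
  · rintro _ ⟨k, rfl⟩
    rw [basis_coe]
    exact h k

theorem commutator_chr {m : ℤ × ℤ → ℂ} (hm : BS m) (l : ℤ × ℤ) :
    diagOp m * mulOp (chr l) - mulOp (chr l) * diagOp m =
      mulOp (chr l) * diagOp (fun k => m (k + l) - m k) := by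
  have hd : BS fun k => m (k + l) - m k :=
    BS.sub (m := fun k => m (k + l)) ⟨hm.choose, fun k => hm.choose_spec _⟩ hm
  refine basis_ext fun k => ?_
  simp only [sub_apply, mul_apply_eq_comp, mulOp_chr_basis, diagOp_basis hm,
    diagOp_basis hd, map_smul, map_sub, mulOp_chr_basis, sub_smul]

/-- The commutator with a continuous function, as a map of the function. -/
noncomputable def commMap (m : ℤ × ℤ → ℂ) : C(Torus, ℂ) →L[ℂ] (TorusL2 →L[ℂ] TorusL2) :=
  LinearMap.mkContinuous
    { toFun := fun g => diagOp m * mulOp g - mulOp g * diagOp m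
      map_add' := fun f g => by
        rw [show (⇑(f + g) : Torus → ℂ) = ⇑f + ⇑g from rfl,
          mulOp_add (BM.of_continuous f) (BM.of_continuous g), mul_add, add_mul]
        abel
      map_smul' := fun c f => by
        rw [show (⇑(c • f) : Torus → ℂ) = c • ⇑f from rfl,
          mulOp_smul (BM.of_continuous f), mul_smul_comm, smul_mul_assoc, smul_sub]
        rfl }
    (2 * ‖diagOp m‖) fun g => by
      change ‖diagOp m * mulOp g - mulOp g * diagOp m‖ ≤ _
      have hg := mulOp_norm (BM.of_continuous g) g.norm_coe_le_norm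
      refine (norm_sub_le _ _).trans ((add_le_add (norm_mul_le _ _) (norm_mul_le _ _)).trans ?_)
      nlinarith [norm_nonneg (diagOp m), norm_nonneg (mulOp g), hg]

theorem commutator_compact {m : ℤ × ℤ → ℂ} (hm : BS m) (hs : ShiftInv m) (g : C(Torus, ℂ)) :
    IsCompactOperator (diagOp m * mulOp g - mulOp g * diagOp m) := by
  have hK : IsClosed {T : TorusL2 →L[ℂ] TorusL2 | IsCompactOperator T} :=
    isClosed_setOfPred_isCompactOperator
  let S : Submodule ℂ C(Torus, ℂ) :=
    (compactOperator (RingHom.id ℂ) TorusL2 TorusL2).comap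
      (commMap m : C(Torus, ℂ) →ₗ[ℂ] TorusL2 →L[ℂ] TorusL2)
  have hSclosed : IsClosed (S : Set C(Torus, ℂ)) := hK.preimage (commMap m).continuous
  have hchr : span ℂ (Set.range chr) ≤ S := by
    refine span_le.2 ?_
    rintro _ ⟨l, rfl⟩
    change IsCompactOperator ⇑(diagOp m * mulOp (chr l) - mulOp (chr l) * diagOp m)
    rw [commutator_chr hm l]
    have hd : BS fun k => m (k + l) - m k :=
      BS.sub (m := fun k => m (k + l)) ⟨hm.choose, fun k => hm.choose_spec _⟩ hm
    exact (diagOp_compact hd (hs l)).clm_comp (mulOp (chr l))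
  have htop : g ∈ (span ℂ (Set.range chr)).topologicalClosure := by
    rw [chr_span]; trivial
  exact Submodule.topologicalClosure_minimal _ hchr hSclosed htop

end VP212.TorusMod
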